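import Vale.Agent.P146.U.H979.LRho
import Vale.Agent.P146.U.H640_LamCS

/-!
`LRho β` for every `β > 0`: the inequality (L) at a regular window of the SK free energy.
-/

namespace Vale.Agent.P146.U.H979

open Vale.Agent.P146.U

/-- the inequality (L) for position systems -/
theorem lamU {b0 b1 Γ : ℝ} (hb1 : 0 < b1) (hΓ : 0 ≤ Γ) : LamU b0 b1 Γ 12 := by
  obtain ⟨C, hC, n0, h⟩ := Vale.Agent.P146.U.R1S.lam_cs_out (Γ := Γ) hb1 hΓ
  exact ⟨C, hC, n0, fun n hn β _ hβ => h n hn β hβ⟩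

/-- **`LRho`.** -/
theorem lrho {β : ℝ} (hβ : 0 < β) : LRho β :=
  lrho_of hβ (lamU hβ (by norm_num))

end Vale.Agent.P146.U.H979
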