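import Vale.Agent.P146.U.H979.DeepN
import Vale.Agent.P146.U.MKb

/-!
The laws of the root configuration of a deep functional are a martingale family.
-/

open MeasureTheory ProbabilityTheory

namespace Vale.Agent.P146.U.H979

open Vale.Agent.P157.Lv Vale.Agent.P146.H425 Vale.Agent.P146.H325 Vale.Agent.P146.H332
  Vale.Agent.P146.R1
open Vale.Agent.P146.H785 (Ax HW lf)

set_option linter.unusedSectionVars false

section

variable {κ : Type} [Fintype κ] {F φ : (κ → ℝ) → ℝ} {D : κ → (κ → ℝ) → ℝ} {B L x : ℝ}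

lemma Ax_zero' (F φ : (κ → ℝ) → ℝ) (x : ℝ) (y : κ → ℝ) : Ax x 0 F φ y = φ y := by
  unfold Ax
  simp only [zero_smul, add_zero, integral_const, probReal_univ, smul_eq_mul, one_mul]
  rw [mul_div_cancel_left₀ _ (Real.exp_pos _).ne']

lemma ew_eq_Ax (x t : ℝ) (F φ : (κ → ℝ) → ℝ) : ew x t F φ = Ax x (√(1 - t)) F φ := rfl

end

variable {ι : Type} [Fintype ι] [DecidableEq ι] {X : Type} [Fintype X] [Nonempty X]
  [DecidableEq X] {k x y : ℝ} {S : ι → X → ℝ} {m σ : ℕ → ℝ} {J : ℕ}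

/-- **The martingale family.** -/
theorem mt_dpn (k : ℝ) (S : ι → X → ℝ) (m σ : ℕ → ℝ) (J : ℕ) (x : ℝ) :
    Mt x (FD (lz k S) m σ J) (fun s z τ => pmu k S m σ J x s z τ) := by
  intro s z τ
  have e : (fun u => pmu k S m σ J x 1 u τ) =
      TD (lz k S) m σ (av k S fun τ' => if τ' = τ then (1 : ℝ) else 0) J := by
    funext u
    unfold pmu pA
    rw [sub_self, Real.sqrt_zero, Ax_zero']
  simp only
  rw [e]
  rfl

end Vale.Agent.P146.U.H979
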