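import Vale.Agent.P146.U.H979.RegW
import Vale.Agent.P146.U.H645_CSys
import Vale.Agent.P146.H946.FoI

/-!
At a regular datum of a position system, `ρ ≤ β² n / 2`.
-/

open MeasureTheory ProbabilityTheory

namespace Vale.Agent.P146.U.H979

open Vale.Agent.P157.Lv Vale.Agent.P146 Vale.Agent.P146.H425 Vale.Agent.P146.U
open Vale.Agent.P146.R1 hiding Et Et4 Et4_123 Et4_124 Et4_add Et4_const Et4_const_mul Et4_cs
  Et4_mono Et4_nonneg Et4_sub Et_add Et_const Et_const_mul Et_cs Et_fst_eq Et_jensen Et_mono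
  Et_nonneg Et_sub Et_weight Et_zero Eu Eu4 Eu4_123 Eu4_124 Eu4_add Eu4_cond Eu4_const_mul
  Eu4_iter Eu4_mono Eu4_nonneg Eu4_one_eq Eu4_one_eq' Eu4_one_pos Eu4_weight Eu_add Eu_const_mul
  Eu_fst Eu_fst_eq Eu_iter Eu_mono Eu_nonneg Eu_one Eu_one_eq Eu_one_pos Eu_weight Eu_zero
  Eu_zero_one Lth Lth_zero Qt dn dn_pos e3_dn eg_Eu eg_Eu4
open Vale.Agent.P146.H785 (Ax HW lf)
open Vale.Agent.P146.H325 Vale.Agent.P146.H332
open Vale.Agent.P146.U.R1

set_option linter.unusedSectionVars false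

section gen

variable {κ : Type} [Fintype κ] {F : (κ → ℝ) → ℝ} {D : κ → (κ → ℝ) → ℝ}
  {B L x T ρ Λ η M : ℝ}

/-- `ρ` is at most the bound of the squared gradient -/
theorem reg_rho_le (h : C11 F D B L) (r : Reg x η T ρ Λ F)
    (hM : ∀ z, R1.sq x (1 - T / 2) F D z ≤ M) : ρ ≤ M := by
  have hx := r.x0
  have hT := r.T0
  have h1 := r.m0
  rw [Ex_xi_SS h hx (by linarith) le_rfl (by linarith),
    show 1 - T / 2 - (1 - T) = T / 2 by ring] at h1
  have h2 := SS_le (x := (1 - η) * x) (b := x) (c := √(1 - T)) (s := √(T / 2))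
    (h.W' hx √(1 - (1 - T / 2))) hx (M := M) (fun w => hM w)
  rw [Real.sq_sqrt (by positivity)] at h2
  have h3 := h1.trans (mul_le_mul_of_nonneg_left h2 (by positivity : 0 ≤ x ^ 2 / 2))
  have h4 : x ^ 2 * T / 4 * ρ ≤ x ^ 2 * T / 4 * M := by
    refine (le_of_eq ?_).trans (h3.trans (le_of_eq ?_)) <;> ring
  exact le_of_mul_le_mul_left h4 (by positivity)

end gen

/-- **The field `ρn`.** -/
theorem rho_n {n : ℕ} {β x η T ρ Λ : ℝ} (hn : 0 < n)
    (S : Vale.Agent.P146.U.R1S.CS n (Vale.Agent.P146.R1C.kk n β) x) (r : Reg x η T ρ Λ S.F) :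
    2 * ρ ≤ β ^ 2 * n := by
  have h := reg_rho_le (M := β ^ 2 * n / 2) S.c11 r (fun z => by
    rw [S.sq_A]
    have h1 := S.fr_A_le (1 - T / 2) z
    have h2 := H946.kk_sq hn β
    have hk : 0 ≤ Vale.Agent.P146.R1C.kk n β ^ 2 / 2 := by positivity
    have h3 := mul_le_mul_of_nonneg_left h1 hk
    have hn0 : (0 : ℝ) ≤ n := Nat.cast_nonneg n
    have h4 : Vale.Agent.P146.R1C.kk n β ^ 2 / 2 * (n : ℝ) ^ 2 = β ^ 2 * n / 2 := by
      rw [← h2]
      ring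
    have h5 : 0 ≤ Vale.Agent.P146.R1C.kk n β ^ 2 / 2 * (n : ℝ) := by positivity
    rw [mul_sub]
    linarith)
  linarith

end Vale.Agent.P146.U.H979
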