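import Vale.Agent.P146.U.H325_Fo
import Vale.Agent.P146.U.H622.FoF
import Vale.Agent.P146.U.H985.Gr6
import Vale.Agent.P146.U.H979.RhoN

/-!
The output `Fo` of the block F (and the growth inequality `Gro`) for a position system at a regular
datum.
-/

open MeasureTheory ProbabilityTheory

namespace Vale.Agent.P146.U.H979

open Vale.Agent.P157.Lv Vale.Agent.P146.H425 Vale.Agent.P146.H325 Vale.Agent.P146.H712
  Vale.Agent.P146.H816 Matrix
open Vale.Agent.P146.H332 hiding NN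
open Vale.Agent.P146.R1 hiding Et Et4 Et4_123 Et4_124 Et4_add Et4_const Et4_const_mul Et4_cs
  Et4_mono Et4_nonneg Et4_sub Et_add Et_const Et_const_mul Et_cs Et_fst_eq Et_jensen Et_mono
  Et_nonneg Et_sub Et_weight Et_zero Eu Eu4 Eu4_123 Eu4_124 Eu4_add Eu4_cond Eu4_const_mul
  Eu4_iter Eu4_mono Eu4_nonneg Eu4_one_eq Eu4_one_eq' Eu4_one_pos Eu4_weight Eu_add Eu_const_mul
  Eu_fst Eu_fst_eq Eu_iter Eu_mono Eu_nonneg Eu_one Eu_one_eq Eu_one_pos Eu_weight Eu_zero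
  Eu_zero_one Lth Lth_zero Qt dn dn_pos e3_dn eg_Eu eg_Eu4 Lth_le Lth_ge Lth_nonneg Lth_half
  Et_xi_low tilt Ex_xi_ge
open Vale.Agent.P146.R1C hiding Ca Cd En En_add En_const En_const_mul En_eq En_mono En_nonneg
  En_pow_le Ew Ew1_pos Ew_add Ew_const_mul Ew_eq Ew_mono Ew_nonneg Fo Fo.N0 Fo.NN_le Fo.Tp Fo.mom
  Fo.n0 Fo.xr Fo.ρ1 Fo.ρA Gb Nd P0 P0_sw P1 P1_sw P2 P2_sw P3 P3_sw Par Par.Ok Sa Sd den_pos dens
  eg_den kk_NN
open Vale.Agent.P146.R1S hiding CS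
open Vale.Agent.P146.U.R1 Vale.Agent.P146.U.R1C Vale.Agent.P146.U.R1S Vale.Agent.P146.U.R1.Gr

set_option linter.unusedSectionVars false

section

variable {n : ℕ} {k x : ℝ} (S : CS n k x)

lemma eg_rt_S (t : ℝ) : EG fun z : Pair n → ℝ => rt S.DA t z := by
  unfold rt fr
  exact EG.sum _ fun e _ => EG.sum _ fun i _ => EG.sum _ fun j _ => (S.eg_DA t e i j).pow 2

lemma eg_fr_S (t : ℝ) : EG fun z : Pair n → ℝ => fr (S.A t z) := by
  unfold fr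
  exact EG.sum _ fun i _ => EG.sum _ fun j _ => (S.eg_A t i j).pow 2

variable {θ η t0 t1 s B L M : ℝ} {HF TF : Pair n → Pair n → (Pair n → ℝ) → ℝ}

lemma Ht_rt_S (h : Sm S.F S.D B L HF TF M) : Ht x θ η t0 t1 s S.F S.D HF =
    k ^ 2 / 2 * Et x θ η t0 t1 s S.F (fun _ _ z2 => rt S.DA s z2) := by
  rw [← R1.Et_const_mul]
  unfold Gr.Ht rt
  simp only [S.hq_DA h]

lemma Qt_fr_S : R1.Qt x θ η t0 t1 s S.F S.D =
    k ^ 2 / 2 * Et x θ η t0 t1 s S.F (fun _ _ z2 => fr (S.A s z2)) - k ^ 2 / 2 * n := by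
  have h := S.c11
  have e1 : R1.Qt x θ η t0 t1 s S.F S.D = Et x θ η t0 t1 s S.F
      (fun _ _ z2 => k ^ 2 / 2 * fr (S.A s z2) - k ^ 2 / 2 * n) := by
    unfold R1.Qt
    congr 1
    funext _ _ z2
    rw [S.sq_A]
    ring
  rw [e1, R1.Et_sub h S.x0 (E3.of2 ((eg_fr_S S s).const_mul _)) (E3.const _), R1.Et_const_mul,
    R1.Et_const h S.x0]

end

/-- The parameters of the plan R1 at a regular datum. -/
noncomputable def qr (x η T Λr s1 s2 : ℝ) : Par := ⟨x, thr η Λr, 1 - T, 1 - T / 2, s1, s2, η⟩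

section

variable {n : ℕ} {β A δ T ρ Λ Λr x η B L M : ℝ} {HF TF : Pair n → Pair n → (Pair n → ℝ) → ℝ}

lemma qr_ok {s1 s2 : ℝ} {F : (Pair n → ℝ) → ℝ} (r : Reg x η T ρ Λr F) (hx1 : x ≤ 1)
    (h1 : 1 - T / 2 < s1) (h12 : s1 + T / 8 ≤ s2) (h2 : s2 < 1 - T / 4) :
    (qr x η T Λr s1 s2).Ok := by
  have hT := r.T0
  have hT1 := r.T1
  have hθ := r.thr.pos
  have hθ1 := r.thr_le
  exact ⟨r.x0, hx1, hθ.le, by simp only [qr]; linarith, hθ1, r.η0, r.η1.le,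
    by simp only [qr]; linarith, by simp only [qr]; linarith, h1.le,
    by simp only [qr]; linarith, by simp only [qr]; linarith⟩

/-- **The output of the block F at a regular datum of a position system.** -/
theorem fo_of (hn : 2 ≤ n) (hβ : 0 < β) (hβn : β ^ 2 ≤ n) (S : CS n (kk n β) x)
    (hS : Sm S.F S.D B L HF TF M) (r : Reg x η T ρ Λr S.F)
    (hx : x * (n : ℝ) ^ ((1 : ℝ) / 22) ≤ 1) (hT : 1 / (n : ℝ) ^ 2 ≤ T)
    (hA : 256 + 144 * Λr + β ^ 2 ≤ A) (hAΛ : A ^ 200 ≤ Λ) (hΛ : Λ ≤ S.y ^ 2 * ρ * T)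
    (hy : 400 ≤ yy x η T ρ) (hδ : 3 * Real.exp (-(yy x η T ρ / (1024 * Λr))) ≤ δ)
    (hδΛ : Λ ^ 1000 * δ ≤ 1) :
    ∃ s1 s2, 1 - T / 2 < s1 ∧ s1 + T / 8 ≤ s2 ∧ s2 < 1 - T / 4 ∧
      Fo n β A δ T ρ Λ S.y (qr x η T Λr s1 s2) S.F S.A S.DA := by
  have hn0 : 0 < n := by omega
  have hT0 := r.T0
  have hT1 := r.T1
  have hΛr := r.Λ1
  have hA1 : 1 ≤ A := by nlinarith [sq_nonneg β]
  have hΛ1 : 1 ≤ Λ := (one_le_pow₀ hA1).trans hAΛ
  have hρ1 : 1 ≤ ρ := by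
    have h1 : S.y ^ 2 * T * ρ ≤ 1 * ρ := by
      refine mul_le_mul_of_nonneg_right ?_ r.ρ0.le
      have h2 : S.y ^ 2 ≤ 1 := pow_le_one₀ S.y0.le (S.yx.trans S.x1)
      calc S.y ^ 2 * T ≤ 1 * 1 := mul_le_mul h2 hT1 hT0.le zero_le_one
        _ = 1 := one_mul 1
    have h3 : Λ ≤ S.y ^ 2 * T * ρ := hΛ.trans (le_of_eq (by ring))
    linarith
  obtain ⟨s1, s2, h1, h12, h2, hr1, hr2⟩ := Gr.Reg.times r r.thr hS S.cv (by linarith)
  have ok : (qr x η T Λr s1 s2).Ok := qr_ok r S.x1 h1 h12 h2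
  have hk := S.k0
  have hkN := kk_N hn0 hβ ρ
  have hNN : 0 < NN n β ρ := by
    have : (0 : ℝ) < n := Nat.cast_pos.2 hn0
    have := r.ρ0
    unfold NN
    positivity
  have f := foF_of (q := qr x η T Λr s1 s2) hn0 hβ S ok r rfl rfl rfl
    (by simp only [qr]; linarith) hρ1 (Λ := Λr) (A := A) (by linarith) hδ
  have rate : ∀ s, Ht x (thr η Λr) η (1 - T) (1 - T / 2) s S.F S.D HF ≤ 144 * Λr * ρ / T →
      Et x (thr η Λr) η (1 - T) (1 - T / 2) s S.F (fun _ _ z2 => rt S.DA s z2) ≤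
        A * NN n β ρ / T := by
    intro s h3
    rw [Ht_rt_S S hS] at h3
    have e1 : kk n β ^ 2 / 2 * (A * NN n β ρ / T) = A * ρ / T := by
      conv_rhs => rw [← hkN]
      ring
    refine le_of_mul_le_mul_left (h3.trans ?_) (by positivity : 0 < kk n β ^ 2 / 2)
    rw [e1]
    have h4 : 144 * Λr ≤ A := by nlinarith [sq_nonneg β]
    have h5 := r.ρ0
    gcongr
  have hp : ∀ p : ℕ, p ≤ 100 → 4 * (p : ℝ) ≤ yy x η T ρ := fun p hp => by
    have : (p : ℝ) ≤ 100 := by exact_mod_cast hp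
    linarith
  refine ⟨s1, s2, h1, h12, h2, hn, hβ, ok, hA1, hx, hT, hT1, rfl, rfl, h1, h12, h2, S.y0, S.yx,
    hAΛ, hΛ, rho_n hn0 S r, hβn, (by positivity : (0 : ℝ) ≤ _).trans hδ, hδΛ, f.up0, f.up1, f.up2,
    f.up3, f.lo2, f.lo3, ?_, ?_, fun p hp' => f.mo0 p (hp p hp'),
    fun s a1 a2 p hp' => f.mo s a1 a2 p (hp p hp')⟩
  · exact (En_2 S.c11 ok (eg_rt_S S s1)).trans_le (rate s1 hr1)
  · exact (En_3 S.c11 ok (eg_rt_S S s2)).trans_le (rate s2 hr2)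

/-- **The growth inequality at a regular datum of a position system.** -/
theorem gro_of (hn : 2 ≤ n) (hβ : 0 < β) (S : CS n (kk n β) x)
    (hS : Sm S.F S.D B L HF TF M) (r : Reg x η T ρ Λr S.F) {N K : ℝ}
    (hN : 150 * Λr ≤ N) (hK : 6 ≤ K) (hKT : K * T ≤ 1) (hy : 4 ≤ yy x η T ρ)
    (hδ : 3 * Real.exp (-(yy x η T ρ / (1024 * Λr))) ≤ 1 / 2) (hKA : 4096 * K ≤ A)
    (hD : PP ((1 - η) * x) (N * x) (√(1 - K * T)) (√(K * T)) S.F -
      PP ((1 - η) * x) x (√(1 - T)) (√T) S.F ≤ N * K / 24576 * (x * ρ * T))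
    {s1 s2 : ℝ} (h1 : 1 - T / 2 < s1) (h12 : s1 + T / 8 ≤ s2) (h2 : s2 < 1 - T / 4) :
    Gro n β A ρ (qr x η T Λr s1 s2) S.F S.A := by
  have hn0 : 0 < n := by omega
  have hT0 := r.T0
  have hρ0 := r.ρ0
  have hK0 : 0 < K := by linarith
  have hA0 : 0 < A := by linarith
  have ok : (qr x η T Λr s1 s2).Ok := qr_ok r S.x1 h1 h12 h2
  have hk := S.k0
  have hkN := kk_N hn0 hβ ρ
  have g := Gr.Reg.growth r r.thr hS S.cv hN hK hKT hy
    (by rw [thr_x r.Λ1]; exact hδ) h1.le (by linarith : s1 ≤ s2) (by linarith) hD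
  rw [Qt_fr_S S, Qt_fr_S S] at g
  have e2 := En_2 S.c11 ok (eg_fr_S S s1)
  have e3 := En_3 S.c11 ok (eg_fr_S S s2)
  unfold Gro
  refine le_of_mul_le_mul_left ?_ (by positivity : 0 < kk n β ^ 2 / 2)
  have g1 : ρ / A ≤ ρ / (512 * K * T) * (s2 - s1) := by
    have g2 : ρ / (512 * K * T) * (T / 8) ≤ ρ / (512 * K * T) * (s2 - s1) :=
      mul_le_mul_of_nonneg_left (by linarith) (by positivity)
    refine le_trans ?_ g2
    have g3 : ρ / (512 * K * T) * (T / 8) = ρ / (4096 * K) := by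
      field_simp
      ring
    rw [g3]
    gcongr
  calc kk n β ^ 2 / 2 * (NN n β ρ / A) = ρ / A := by
        conv_rhs => rw [← hkN]
        ring
    _ ≤ _ := g1.trans g
    _ = kk n β ^ 2 / 2 * (En (qr x η T Λr s1 s2) S.F
          (fun w => fr (S.A s2 (R1C.P3 (qr x η T Λr s1 s2) w))) -
        En (qr x η T Λr s1 s2) S.F (fun w => fr (S.A s1 (R1C.P2 (qr x η T Λr s1 s2) w)))) := by
        rw [mul_sub]
        have e2' : En (qr x η T Λr s1 s2) S.F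
          (fun w => fr (S.A s1 (R1C.P2 (qr x η T Λr s1 s2) w))) = _ := e2
        have e3' : En (qr x η T Λr s1 s2) S.F
          (fun w => fr (S.A s2 (R1C.P3 (qr x η T Λr s1 s2) w))) = _ := e3
        rw [e2', e3']
        simp only [qr]
        ring

end

end Vale.Agent.P146.U.H979
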