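import Vale.Agent.P146.U.H979.Scale
import Vale.Agent.P146.U.H622.F1d
import Vale.Agent.P146.H325.Fo

/-!
Regular data at a horizon `u ≤ 1`: outer exponent `x`, window exponent `a` on `[u - T, u]`; the
rescaled function `sc √u U` has a regular datum at the horizon `1`.
-/

open MeasureTheory ProbabilityTheory

namespace Vale.Agent.P146.U.H979

open Vale.Agent.P157.Lv Vale.Agent.P146 Vale.Agent.P146.H425 Vale.Agent.P146.R1 Vale.Agent.P146.U
open Vale.Agent.P146.H785 (Ax HW lf)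
open Vale.Agent.P146.H325 Vale.Agent.P146.H332

set_option linter.unusedSectionVars false

variable {κ : Type} [Fintype κ] {F U : (κ → ℝ) → ℝ} {D : κ → (κ → ℝ) → ℝ}
  {B L x a u T ρ Λ : ℝ}

/-- **A regular datum at the horizon `u`**, by increments of the two-level functional. -/
structure RegU (x a u T ρ Λ : ℝ) (U : (κ → ℝ) → ℝ) : Prop where
  x0 : 0 < x
  xa : x ≤ a
  T0 : 0 < T
  Tu : T ≤ u
  Λ1 : 1 ≤ Λ
  ρ0 : 0 < ρ
  lo : a / 4 * (ρ * T) ≤ PP x a √(u - T) √T U - PP x a √(u - T / 2) √(T / 2) U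
  up : PP x (2 * a) √(u - T) √T U - PP x a √(u - T) √T U ≤ a / 2 * (Λ * ρ * T)

namespace RegU

variable (r : RegU x a u T ρ Λ U)
include r

lemma a0 : 0 < a := r.x0.trans_le r.xa

lemma u0 : 0 < u := r.T0.trans_le r.Tu

lemma η0 : 0 ≤ 1 - x / a := by
  have h := r.xa
  have h0 := r.a0
  rw [sub_nonneg, div_le_one h0]
  exact h

lemma η1 : 1 - x / a < 1 := by
  have := div_pos r.x0 r.a0
  linarith

lemma outer : (1 - (1 - x / a)) * a = x := by
  have h0 := r.a0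
  field_simp
  ring

lemma T0' : 0 < T / u := div_pos r.T0 r.u0

lemma T1' : T / u ≤ 1 := (div_le_one r.u0).2 r.Tu

lemma ρT : u * ρ * (T / u) = ρ * T := by
  have h0 := r.u0
  field_simp

/-- **The rescaled datum.** -/
theorem reg (h : C11 U D B L) (hc : Cv U) :
    R1.Reg a (1 - x / a) (T / u) (u * ρ) Λ (sc √u U) := by
  have hu := r.u0
  have hT := r.T0
  refine R1.Reg.of_incr (c11_sc h (Real.sqrt_nonneg u)) (cv_sc hc _) r.a0 r.η0 r.η1 r.T0' r.T1'
    r.Λ1 (mul_pos hu r.ρ0) ?_ ?_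
  · rw [r.ρT, r.outer, PP_win hu, show T / u / 2 = T / 2 / u by ring, PP_win hu]
    exact r.lo
  · rw [mul_assoc Λ, r.ρT, ← mul_assoc Λ, r.outer, PP_win hu, PP_win hu]
    exact r.up

lemma yy_eq : R1.yy a (1 - x / a) (T / u) (u * ρ) = x * a * ρ * T := by
  have h0 := r.a0
  have h1 := r.u0
  unfold R1.yy
  field_simp
  ring

end RegU

/-! ### the size -/

lemma kk_mul (n : ℕ) (β r : ℝ) : Vale.Agent.P146.R1C.kk n β * r = Vale.Agent.P146.R1C.kk n (β * r) := by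
  unfold Vale.Agent.P146.R1C.kk
  ring

lemma NN_win (n : ℕ) {β : ℝ} (hβ : β ≠ 0) {u : ℝ} (hu : 0 < u) (ρ : ℝ) :
    Vale.Agent.P146.R1C.NN n (β * √u) (u * ρ) = Vale.Agent.P146.R1C.NN n β ρ := by
  unfold Vale.Agent.P146.R1C.NN
  rw [mul_pow, Real.sq_sqrt hu.le]
  field_simp

/-- one layer, with the inverse temperature -/
theorem F_one' (n : ℕ) (β : ℝ) {u : ℝ} (hu : 0 < u) (y : ℝ) :
    FD (lz (Vale.Agent.P146.R1C.kk n (β * √u)) SkS) (fun _ => y) (fun _ => √((1 - u) / u)) 1 =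
      sc √u (W y √(1 - u) (lz (Vale.Agent.P146.R1C.kk n β) (SkS (n := n)))) := by
  rw [← kk_mul, F_one _ _ hu]

theorem D_one' (n : ℕ) (β : ℝ) {u : ℝ} (hu : 0 < u) (y : ℝ) :
    (fun e => TD (lz (Vale.Agent.P146.R1C.kk n (β * √u)) SkS) (fun _ => y) (fun _ => √((1 - u) / u))
      (Dz (Vale.Agent.P146.R1C.kk n (β * √u)) SkS e) 1) =
      scD √u fun e => DW y √(1 - u) (lz (Vale.Agent.P146.R1C.kk n β) (SkS (n := n)))
        (Dz (Vale.Agent.P146.R1C.kk n β) SkS) e := by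
  rw [← kk_mul, D_one _ _ hu]

end Vale.Agent.P146.U.H979
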