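import Vale.Agent.P146.H713.DeepPos

/-!
The deep functional of a Gibbs measure, seen from a position, for exponents in `[y, 1]` without any
order: positivity, the row inequality, the rank one inequality (with the smallest exponent `y`).
-/

open MeasureTheory ProbabilityTheory

namespace Vale.Agent.P146.U.H979

open Vale.Agent.P157.Lv Vale.Agent.P146.H425 Vale.Agent.P146.H325 Vale.Agent.P146.H332
  Vale.Agent.P146.R1
open Vale.Agent.P146.H785 (Ax HW lf)

set_option linter.unusedSectionVars false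

/-- Exponents in `[y, 1]`, in any order. -/
structure ExN (m : ℕ → ℝ) (J : ℕ) (x y : ℝ) : Prop where
  y0 : 0 < y
  yx : y ≤ x
  x1 : x ≤ 1
  ge : ∀ i < J, y ≤ m i
  le : ∀ i < J, m i ≤ 1

lemma ExN.x0 {m : ℕ → ℝ} {J : ℕ} {x y : ℝ} (h : ExN m J x y) : 0 < x := h.y0.trans_le h.yx

lemma ExN.pos {m : ℕ → ℝ} {J : ℕ} {x y : ℝ} (h : ExN m J x y) (i : ℕ) (hi : i < J) : 0 < m i :=
  h.y0.trans_le (h.ge i hi)

lemma ExN.pos' {m : ℕ → ℝ} {J : ℕ} {x y : ℝ} (h : ExN m J x y) {i : ℕ} (hi : i ≤ J) (j : ℕ)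
    (hj : j < i) : 0 < m j := h.pos j (hj.trans_le hi)

/-- monotone exponents are a special case -/
lemma ExN.of_exs {m : ℕ → ℝ} {J : ℕ} {x : ℝ} (h : Exs m J x) : ExN m J x x :=
  ⟨h.x0, le_rfl, h.x1, h.ge, h.le⟩

/-! ### one layer, and the three inequalities for unordered exponents -/

section one

variable {κ : Type} [Fintype κ] {F c φ ψ g : (κ → ℝ) → ℝ} {D : κ → (κ → ℝ) → ℝ}
  {B L x y s : ℝ} {m σ : ℕ → ℝ} {J : ℕ}

lemma KW_le' (h : C11 F D B L) (hx0 : 0 ≤ x) (hx1 : x ≤ 1) (hc : EG c) (hφ : EG φ) (hg : EG g)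
    (hle : ∀ u, c u + φ u ^ 2 ≤ g u) (s : ℝ) (y : κ → ℝ) :
    KW x s F c φ φ y + Ax x s F φ y ^ 2 ≤ Ax x s F g y := by
  have h1 : Ax x s F (fun u => c u + φ u * φ u) y ≤ Ax x s F g y :=
    H785.Ax_mono h.lip h.B0 (hc.add (hφ.mul hφ)) hg (fun u => by
      have := hle u
      rw [pow_two] at this
      exact this) x s y
  rw [H785.Ax_add h.lip h.B0 hc (hφ.mul hφ)] at h1
  have h2 := H785.Ax_sq_le h.lip h.B0 hφ x s y
  have h3 : 0 ≤ (1 - x) * (Ax x s F (fun u => φ u * φ u) y - Ax x s F φ y ^ 2) :=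
    mul_nonneg (by linarith) (by linarith)
  unfold KW
  nlinarith

lemma KW_kov' (h : C11 F D B L) (hyx : y ≤ x) (hc : EG c) (hφ : EG φ) (hg : EG g)
    (h1 : ∀ u, y * (g u - φ u ^ 2) ≤ c u) (h2 : ∀ u, φ u ^ 2 ≤ g u) (s : ℝ) (z : κ → ℝ) :
    y * (Ax x s F g z - Ax x s F φ z ^ 2) ≤ KW x s F c φ φ z ∧
      Ax x s F φ z ^ 2 ≤ Ax x s F g z := by
  have h3 : Ax x s F (fun u => y * g u + -y * (φ u * φ u)) z ≤ Ax x s F c z :=
    H785.Ax_mono h.lip h.B0 ((hg.const_mul y).add ((hφ.mul hφ).const_mul (-y))) hc (fun u => by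
      have := h1 u
      rw [pow_two] at this
      linarith) x s z
  rw [H785.Ax_add h.lip h.B0 (hg.const_mul y) ((hφ.mul hφ).const_mul (-y)),
    H785.Ax_const_mul, H785.Ax_const_mul] at h3
  have h4 : Ax x s F (fun u => φ u * φ u) z ≤ Ax x s F g z :=
    H785.Ax_mono h.lip h.B0 (hφ.mul hφ) hg (fun u => by rw [← pow_two]; exact h2 u) x s z
  have h5 := H785.Ax_sq_le h.lip h.B0 hφ x s z
  have h6 : 0 ≤ (x - y) * (Ax x s F (fun u => φ u * φ u) z - Ax x s F φ z ^ 2) :=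
    mul_nonneg (by linarith) (by linarith)
  constructor
  · unfold KW
    nlinarith
  · linarith

/-- **(row)**, unordered exponents -/
theorem KD_le' (h : C11 F D B L) (h0 : ∀ i < J, 0 < m i) (h1 : ∀ i < J, m i ≤ 1) (hc : EG c)
    (hφ : EG φ) (hg : EG g) (hle : ∀ u, c u + φ u ^ 2 ≤ g u) : ∀ i, i ≤ J → ∀ y,
    KD F m σ c φ φ i y + TD F m σ φ i y ^ 2 ≤ TD F m σ g i y
  | 0, _ => fun y => hle y
  | i + 1, hi => by
    have hm' : ∀ j < i, 0 < m j := fun j hj => h0 j (by omega)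
    intro y
    exact KW_le' (c11_FD (σ := σ) h i hm') (h0 i (by omega)).le (h1 i (by omega))
      (eg_KD h hc hφ hφ i hm') (eg_TD h hφ i hm') (eg_TD h hg i hm')
      (KD_le' h h0 h1 hc hφ hg hle i (by omega)) _ y

/-- **(Kov)**, unordered exponents -/
theorem KD_kov' (h : C11 F D B L) (hy : 0 < y) (hy1 : y ≤ 1) (h0 : ∀ i < J, y ≤ m i) (hc : EG c)
    (hφ : EG φ) (hg : EG g) (h1 : ∀ u, g u - φ u ^ 2 ≤ c u) (h2 : ∀ u, φ u ^ 2 ≤ g u) :
    ∀ i, i ≤ J → ∀ z,
    y * (TD F m σ g i z - TD F m σ φ i z ^ 2) ≤ KD F m σ c φ φ i z ∧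
      TD F m σ φ i z ^ 2 ≤ TD F m σ g i z
  | 0, _ => fun z => by
    refine ⟨?_, h2 z⟩
    show y * (g z - φ z ^ 2) ≤ c z
    have h3 := h1 z
    have h4 : 0 ≤ (1 - y) * (g z - φ z ^ 2) := mul_nonneg (by linarith) (by linarith [h2 z])
    linarith
  | i + 1, hi => by
    have hm' : ∀ j < i, 0 < m j := fun j hj => hy.trans_le (h0 j (by omega))
    intro z
    exact KW_kov' (c11_FD (σ := σ) h i hm') (h0 i (by omega)) (eg_KD h hc hφ hφ i hm')
      (eg_TD h hφ i hm') (eg_TD h hg i hm')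
      (fun u => (KD_kov' h hy hy1 h0 hc hφ hg h1 h2 i (by omega) u).1)
      (fun u => (KD_kov' h hy hy1 h0 hc hφ hg h1 h2 i (by omega) u).2) _ z

end one

variable {ι : Type} [Fintype ι] [DecidableEq ι] {X : Type} [Fintype X] [Nonempty X]
  {k : ℝ} {S : ι → X → ℝ} {m σ : ℕ → ℝ} {J : ℕ} {x y t : ℝ} {h g : X → ℝ}

lemma c11_Fdp (hE : ExN m J x y) : C11 (FD (lz k S) m σ J)
    (fun e => TD (lz k S) m σ (Dz k S e) J) (Kb k S)
    (LD (Kb k S) (3 * Kb k S ^ 2) (Fintype.card ι) m J) :=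
  c11_FD (sm_lz k S).c11 J (hE.pos' le_rfl)

lemma cv_Fdp (hE : ExN m J x y) : Cv (FD (lz k S) m σ J) :=
  cv_FD (sm_lz k S).c11 (cv_lz k S) J (hE.pos' le_rfl)

theorem sm_Fdp (hE : ExN m J x y) : Sm (FD (lz k S) m σ J)
    (fun e => TD (lz k S) m σ (Dz k S e) J) (Kb k S)
    (LD (Kb k S) (3 * Kb k S ^ 2) (Fintype.card ι) m J)
    (fun e f => KD (lz k S) m σ (Hz k S e f) (Dz k S e) (Dz k S f) J)
    (T3D (lz k S) m σ (Dz k S) (Hz k S) (Tz k S) J) (MD (Kb k S) (2 * Kb k S ^ 2) m J) :=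
  sm_FD (sm_lz k S) J (hE.pos' le_rfl)

section

variable (hE : ExN m J x y)
include hE

lemma eg_dA (h : X → ℝ) : EG (TD (lz k S) m σ (av k S h) J) :=
  eg_TD (sm_lz k S).c11 (eg_av k S h) J (hE.pos' le_rfl)

lemma cont_dA (h : X → ℝ) : Continuous (TD (lz k S) m σ (av k S h) J) :=
  cont_TD (sm_lz k S).c11 (eg_av k S h) (cont_av k S h) J (hE.pos' le_rfl)

lemma eg_dK (h g : X → ℝ) : EG (KD (lz k S) m σ (tc k S h g) (av k S h) (av k S g) J) :=
  eg_KD (sm_lz k S).c11 eg_tc (eg_av k S h) (eg_av k S g) J (hE.pos' le_rfl)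

lemma cont_dK (h g : X → ℝ) :
    Continuous (KD (lz k S) m σ (tc k S h g) (av k S h) (av k S g) J) :=
  cont_KD (sm_lz k S).c11 eg_tc (eg_av k S h) (eg_av k S g) cont_tc (cont_av k S h)
    (cont_av k S g) J (hE.pos' le_rfl)

lemma eg_pA (t : ℝ) (h : X → ℝ) : EG (pA k S m σ J x t h) :=
  eg_Ax (c11_Fdp hE) (eg_dA hE h) x _

lemma cont_pA (t : ℝ) (h : X → ℝ) : Continuous (pA k S m σ J x t h) :=
  cont_Ax (c11_Fdp hE) (eg_dA hE h) (cont_dA hE h) x _

lemma eg_pK (t : ℝ) (h g : X → ℝ) : EG (pK k S m σ J x t h g) :=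
  eg_KW (c11_Fdp hE) (eg_dK hE h g) (eg_dA hE h) (eg_dA hE g) x _

lemma cont_pK (t : ℝ) (h g : X → ℝ) : Continuous (pK k S m σ J x t h g) :=
  cont_KW (c11_Fdp hE) (eg_dK hE h g) (eg_dA hE h) (eg_dA hE g) (cont_dK hE h g)
    (cont_dA hE h) (cont_dA hE g) x _

lemma pA_lin {K : Type*} (A : Finset K) (v : K → ℝ) (h : K → X → ℝ) (z : ι → ℝ) :
    pA k S m σ J x t (fun τ => ∑ a ∈ A, v a * h a τ) z =
      ∑ a ∈ A, v a * pA k S m σ J x t (h a) z := by
  have e1 : av k S (fun τ => ∑ a ∈ A, v a * h a τ) = fun u => ∑ a ∈ A, v a * av k S (h a) u := by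
    funext u
    rw [av_sum]
    exact Finset.sum_congr rfl fun a _ => av_mul k S _ _ u
  unfold pA
  rw [e1, TD_lin (sm_lz k S).c11 A v (fun a _ => eg_av k S (h a)) J (hE.pos' le_rfl)]
  exact Ax_lin (c11_Fdp hE) A v (fun a _ => eg_dA hE (h a)) x _ z

lemma pA_const (a : ℝ) (z : ι → ℝ) : pA k S m σ J x t (fun _ => a) z = a := by
  have e1 : av k S (fun _ : X => a) = fun _ => a := funext fun u => av_const k S a u
  unfold pA
  rw [e1, TD_const (sm_lz k S).c11 a J (hE.pos' le_rfl)]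
  have hc := c11_Fdp (k := k) (S := S) (σ := σ) hE
  exact H785.Ax_const hc.lip hc.B0 a _ _ z

lemma pA_mono {h g : X → ℝ} (hle : ∀ τ, h τ ≤ g τ) (z : ι → ℝ) :
    pA k S m σ J x t h z ≤ pA k S m σ J x t g z := by
  have hc := c11_Fdp (k := k) (S := S) (σ := σ) hE
  exact H785.Ax_mono hc.lip hc.B0 (eg_dA hE h) (eg_dA hE g)
    (TD_mono (sm_lz k S).c11 (eg_av k S h) (eg_av k S g) (fun u => av_mono k S hle u) J
      (hE.pos' le_rfl)) _ _ z

lemma pA_nonneg {h : X → ℝ} (hle : ∀ τ, 0 ≤ h τ) (z : ι → ℝ) :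
    0 ≤ pA k S m σ J x t h z := by
  have := pA_mono (k := k) (S := S) (σ := σ) (t := t) hE (h := fun _ => 0) hle z
  rwa [pA_const hE] at this

lemma abs_pA_le {h : X → ℝ} {C : ℝ} (hC : ∀ τ, |h τ| ≤ C) (z : ι → ℝ) :
    |pA k S m σ J x t h z| ≤ C := by
  have h1 := pA_mono (k := k) (S := S) (σ := σ) (t := t) hE (h := fun _ => -C)
    (fun τ => (abs_le.1 (hC τ)).1) z
  have h2 := pA_mono (k := k) (S := S) (σ := σ) (t := t) hE (g := fun _ => C)
    (fun τ => (abs_le.1 (hC τ)).2) z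
  rw [pA_const hE] at h1 h2
  exact abs_le.2 ⟨h1, h2⟩

lemma pK_bil {K K' : Type*} (A : Finset K) (A' : Finset K') (v : K → ℝ) (w : K' → ℝ)
    (h : K → X → ℝ) (g : K' → X → ℝ) (z : ι → ℝ) :
    pK k S m σ J x t (fun τ => ∑ a ∈ A, v a * h a τ) (fun τ => ∑ b ∈ A', w b * g b τ) z =
      ∑ a ∈ A, ∑ b ∈ A', v a * w b * pK k S m σ J x t (h a) (g b) z := by
  have e1 : ∀ {L : Type _} (A : Finset L) (v : L → ℝ) (h : L → X → ℝ),
      av k S (fun τ => ∑ a ∈ A, v a * h a τ) = fun u => ∑ a ∈ A, v a * av k S (h a) u := by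
    intro L A v h
    funext u
    rw [av_sum]
    exact Finset.sum_congr rfl fun a _ => av_mul k S _ _ u
  have e2 : ∀ {L : Type _} (A : Finset L) (v : L → ℝ) (h : L → X → ℝ),
      av k S (fun τ => ∑ a ∈ A, v a * h a τ) = fun u => ∑ a ∈ A, v a * av k S (h a) u := by
    intro L A v h
    funext u
    rw [av_sum]
    exact Finset.sum_congr rfl fun a _ => av_mul k S _ _ u
  have e3 : tc k S (fun τ => ∑ a ∈ A, v a * h a τ) (fun τ => ∑ b ∈ A', w b * g b τ) =
      fun u => ∑ a ∈ A, ∑ b ∈ A', v a * w b * tc k S (h a) (g b) u := by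
    funext u
    unfold tc
    have e4 : (fun τ => (∑ a ∈ A, v a * h a τ) * ∑ b ∈ A', w b * g b τ) =
        fun τ => ∑ a ∈ A, ∑ b ∈ A', v a * w b * (h a τ * g b τ) := by
      funext τ
      rw [Finset.sum_mul_sum]
      exact Finset.sum_congr rfl fun a _ => Finset.sum_congr rfl fun b _ => by ring
    rw [e4, e1, e2, av_sum]
    simp only [av_sum, av_mul]
    rw [Finset.sum_mul_sum, ← Finset.sum_sub_distrib]
    refine Finset.sum_congr rfl fun a _ => ?_
    rw [← Finset.sum_sub_distrib]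
    exact Finset.sum_congr rfl fun b _ => by ring
  have hm := hE.pos' (i := J) le_rfl
  unfold pK
  rw [e1, e2, e3, KD_bil (sm_lz k S).c11 A A' v w (fun _ _ _ _ => eg_tc)
    (fun a _ => eg_av k S (h a)) (fun b _ => eg_av k S (g b)) J hm,
    TD_lin (sm_lz k S).c11 A v (fun a _ => eg_av k S (h a)) J hm,
    TD_lin (sm_lz k S).c11 A' w (fun a _ => eg_av k S (g a)) J hm]
  exact KW_bil (c11_Fdp hE) A A' v w (fun a _ b _ => eg_dK hE (h a) (g b))
    (fun a _ => eg_dA hE (h a)) (fun b _ => eg_dA hE (g b)) x _ z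

/-- **The covariance is nonnegative.** -/
lemma pK_nonneg (h : X → ℝ) (z : ι → ℝ) : 0 ≤ pK k S m σ J x t h h z :=
  KW_nonneg (c11_Fdp hE) hE.x0.le (eg_dA hE h) (fun u => KD_nonneg (sm_lz k S).c11 eg_tc
    (eg_av k S h) (tc_nonneg h) J (hE.pos' le_rfl) u) _ z

/-- **(row)** -/
lemma pK_le (h : X → ℝ) (z : ι → ℝ) : pK k S m σ J x t h h z +
    pA k S m σ J x t h z ^ 2 ≤ pA k S m σ J x t (fun τ => h τ * h τ) z :=
  KW_le' (c11_Fdp hE) hE.x0.le hE.x1 (eg_dK hE h h) (eg_dA hE h) (eg_dA hE fun τ => h τ * h τ)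
    (fun u => KD_le' (sm_lz k S).c11 hE.pos hE.le eg_tc (eg_av k S h)
      (eg_av k S fun τ => h τ * h τ) (fun u => by unfold tc; linarith) J le_rfl u) _ z

/-- **(Kov)** -/
lemma pK_kov (h : X → ℝ) (z : ι → ℝ) : y * (pA k S m σ J x t (fun τ => h τ * h τ) z -
    pA k S m σ J x t h z ^ 2) ≤ pK k S m σ J x t h h z ∧
    pA k S m σ J x t h z ^ 2 ≤ pA k S m σ J x t (fun τ => h τ * h τ) z := by
  have key := KD_kov' (σ := σ) (sm_lz k S).c11 hE.y0 (hE.yx.trans hE.x1) hE.ge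
    (c := tc k S h h) eg_tc (eg_av k S h) (eg_av k S fun τ => h τ * h τ)
    (fun u => by unfold tc; linarith) (fun u => by
      have h1 := av_sq_le k S h u
      have e : (fun τ => h τ * h τ) = fun τ => h τ ^ 2 := by funext τ; ring
      rwa [e]) J le_rfl
  exact KW_kov' (c11_Fdp hE) hE.yx (eg_dK hE h h) (eg_dA hE h) (eg_dA hE fun τ => h τ * h τ)
    (fun u => (key u).1) (fun u => (key u).2) _ z

lemma pK_one (h : X → ℝ) (z : ι → ℝ) : pK k S m σ J x t h (fun _ => 1) z = 0 := by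
  have e1 : av k S (fun _ : X => (1 : ℝ)) = fun _ => 1 := funext fun u => av_one k S u
  have e2 : tc k S h (fun _ => 1) = fun _ => 0 := by
    funext u
    unfold tc
    simp only [mul_one, av_one]
    ring
  have hm := hE.pos' (i := J) le_rfl
  unfold pK
  rw [e1, e2, KD_one (sm_lz k S).c11 J hm, TD_const (sm_lz k S).c11 1 J hm]
  exact KW_one (c11_Fdp hE) _ _ z

/-- **The derivative of a mean at a position.** -/
theorem fb_pA (t : ℝ) (h : X → ℝ) : Fb (pA k S m σ J x t h)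
    (fun e z => k * pK k S m σ J x t h (S e) z) := by
  have hD : ∀ e, Continuous (Dz k S e) := (sm_lz k S).ctD
  have h1 := fb_TD (σ := σ) (sm_lz k S).c11 hD (fb_av (k := k) (S := S) h) J
    (hE.pos' le_rfl)
  have h2 := h1.Ax (c11_Fdp (k := k) (S := S) (σ := σ) hE) (fun e => cont_TD (sm_lz k S).c11
    (C11.egD (sm_lz k S).c11 e) (hD e) J (hE.pos' le_rfl)) x (√(1 - t))
  have e1 : ∀ e, KW x (√(1 - t)) (FD (lz k S) m σ J)
      (KD (lz k S) m σ (fun u => k * tc k S h (S e) u) (av k S h) (Dz k S e) J)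
      (TD (lz k S) m σ (av k S h) J) (TD (lz k S) m σ (Dz k S e) J) =
      fun z => k * pK k S m σ J x t h (S e) z := by
    intro e
    have e2 : Dz k S e = fun u => k * av k S (S e) u := rfl
    funext z
    rw [e2, KD_smul, TD_const_mul, KW_smul]
    rfl
  have e3 : (fun e => KW x (√(1 - t)) (FD (lz k S) m σ J)
      (KD (lz k S) m σ (fun u => k * tc k S h (S e) u) (av k S h) (Dz k S e) J)
      (TD (lz k S) m σ (av k S h) J) (TD (lz k S) m σ (Dz k S e) J)) =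
      fun e z => k * pK k S m σ J x t h (S e) z := funext e1
  rw [← e3]
  exact h2

/-- the gradient of the value function -/
lemma dd_pA (e : ι) (z : ι → ℝ) : dd x t (FD (lz k S) m σ J)
    (fun e => TD (lz k S) m σ (Dz k S e) J) e z = k * pA k S m σ J x t (S e) z := by
  have e2 : Dz k S e = fun u => k * av k S (S e) u := rfl
  show Ax x (√(1 - t)) (FD (lz k S) m σ J) (TD (lz k S) m σ (Dz k S e) J) z = _
  rw [e2, TD_const_mul, H785.Ax_const_mul]
  rfl

/-- the Hessian of the value function -/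
lemma hh_pK (e f : ι) (z : ι → ℝ) : hh x t (FD (lz k S) m σ J)
    (fun e => TD (lz k S) m σ (Dz k S e) J)
    (fun e f => KD (lz k S) m σ (Hz k S e f) (Dz k S e) (Dz k S f) J) e f z =
    k ^ 2 * pK k S m σ J x t (S e) (S f) z := by
  have h1 := fb_pA (k := k) (S := S) (m := m) (σ := σ) (J := J) hE t (S e)
  have hD : ∀ e, Dz k S e = fun u => k * av k S (S e) u := fun e => rfl
  show KW x (√(1 - t)) (FD (lz k S) m σ J)
    (KD (lz k S) m σ (Hz k S e f) (Dz k S e) (Dz k S f) J)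
    (TD (lz k S) m σ (Dz k S e) J) (TD (lz k S) m σ (Dz k S f) J) z = _
  have e3 : Hz k S e f = fun u => k * (k * tc k S (S e) (S f) u) := by
    funext u
    unfold Hz tc
    ring
  rw [e3, hD e, hD f, KD_smul, TD_const_mul, TD_const_mul, KW_smul, KD_symm, KD_smul, KW_symm,
    KW_smul, KD_symm, KW_symm]
  unfold pK
  ring

end

/-! ### the root law -/

section root

variable [DecidableEq X]

variable (hE : ExN m J x y)
include hE

lemma pmu_nonneg (z : ι → ℝ) (τ : X) : 0 ≤ pmu k S m σ J x t z τ :=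
  pA_nonneg hE (fun τ' => by split_ifs <;> norm_num) z

/-- means as sums over the root law -/
lemma pA_pmu (h : X → ℝ) (z : ι → ℝ) :
    pA k S m σ J x t h z = ∑ τ, pmu k S m σ J x t z τ * h τ := by
  have e : h = fun τ' => ∑ τ, h τ * (if τ' = τ then 1 else 0) := by
    funext τ'
    simp
  have h1 := pA_lin (k := k) (S := S) (m := m) (σ := σ) (J := J) (x := x) (t := t) hE
    Finset.univ h (fun τ τ' => if τ' = τ then 1 else 0) z
  conv_lhs => rw [e]
  rw [h1]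
  exact Finset.sum_congr rfl fun τ _ => mul_comm _ _

lemma sum_pmu (z : ι → ℝ) : ∑ τ, pmu k S m σ J x t z τ = 1 := by
  have h1 := pA_pmu (k := k) (S := S) (σ := σ) (t := t) hE (fun _ => 1) z
  rw [pA_const hE] at h1
  simpa using h1.symm

lemma eg_pmu (t : ℝ) (τ : X) : EG fun z => pmu k S m σ J x t z τ := eg_pA hE t _

end root

/-! ### symmetries -/

section sym

variable {A : (ι → ℝ) → ι → ℝ} (hA : GS A) (hlz : ∀ u, lz k S (A u) = lz k S u)
  (hE : ExN m J x y)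
include hA hlz hE

lemma Fdp_GS (z : ι → ℝ) : FD (lz k S) m σ J (A z) = FD (lz k S) m σ J z :=
  FD_GS (sm_lz k S).c11 hA hlz J (hE.pos' le_rfl) z

lemma pA_GS {h h' : X → ℝ} (hh : ∀ u, av k S h (A u) = av k S h' u) (z : ι → ℝ) :
    pA k S m σ J x t h (A z) = pA k S m σ J x t h' z := by
  have e : (fun u => av k S h (A u)) = av k S h' := funext hh
  unfold pA
  rw [Ax_GS hA (c11_Fdp (k := k) (S := S) (σ := σ) hE).eg.meas (eg_dA hE h).meas
    (Fdp_GS hA hlz hE)]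
  congr 1
  funext u
  rw [TD_GS (sm_lz k S).c11 hA (eg_av k S h) (by rw [e]; exact eg_av k S h') hlz J
    (hE.pos' le_rfl), e]

lemma pA_GS_neg {h h' : X → ℝ} (hh : ∀ u, av k S h (A u) = -av k S h' u) (z : ι → ℝ) :
    pA k S m σ J x t h (A z) = -pA k S m σ J x t h' z := by
  have e : (fun u => av k S h (A u)) = fun u => -av k S h' u := funext hh
  unfold pA
  rw [Ax_GS hA (c11_Fdp (k := k) (S := S) (σ := σ) hE).eg.meas (eg_dA hE h).meas
    (Fdp_GS hA hlz hE), ← Ax_neg]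
  congr 1
  funext u
  rw [TD_GS (sm_lz k S).c11 hA (eg_av k S h) (by rw [e]; exact (eg_av k S h').neg) hlz J
    (hE.pos' le_rfl), e, TD_neg]

lemma pK_GS_neg {h h' g g' : X → ℝ} (hh : ∀ u, av k S h (A u) = -av k S h' u)
    (hg : ∀ u, av k S g (A u) = -av k S g' u)
    (hhg : ∀ u, av k S (fun τ => h τ * g τ) (A u) = av k S (fun τ => h' τ * g' τ) u)
    (z : ι → ℝ) : pK k S m σ J x t h g (A z) = pK k S m σ J x t h' g' z := by
  have e : (fun u => av k S h (A u)) = fun u => -av k S h' u := funext hh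
  have e' : (fun u => av k S g (A u)) = fun u => -av k S g' u := funext hg
  have e'' : (fun u => tc k S h g (A u)) = tc k S h' g' := by
    funext u
    unfold tc
    rw [hh, hg, hhg]
    ring
  have hm := hE.pos' (i := J) le_rfl
  have g1 : EG fun u => av k S h (A u) := by rw [e]; exact (eg_av k S h').neg
  have g2 : EG fun u => av k S g (A u) := by rw [e']; exact (eg_av k S g').neg
  unfold pK
  rw [KW_GS hA (c11_Fdp (k := k) (S := S) (σ := σ) hE).eg.meas (eg_dK hE h g).meas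
    (eg_dA hE h).meas (eg_dA hE g).meas (Fdp_GS hA hlz hE)]
  have a1 : (fun u => KD (lz k S) m σ (tc k S h g) (av k S h) (av k S g) J (A u)) =
      KD (lz k S) m σ (tc k S h' g') (av k S h') (av k S g') J := by
    funext u
    rw [KD_GS (sm_lz k S).c11 hA eg_tc (eg_av k S h) (eg_av k S g) g1 g2 hlz J hm, e, e', e'',
      KD_neg]
  have a2 : (fun u => TD (lz k S) m σ (av k S h) J (A u)) =
      fun u => -TD (lz k S) m σ (av k S h') J u := by
    funext u
    rw [TD_GS (sm_lz k S).c11 hA (eg_av k S h) g1 hlz J hm, e, TD_neg]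
  have a3 : (fun u => TD (lz k S) m σ (av k S g) J (A u)) =
      fun u => -TD (lz k S) m σ (av k S g') J u := by
    funext u
    rw [TD_GS (sm_lz k S).c11 hA (eg_av k S g) g2 hlz J hm, e', TD_neg]
  rw [a1, a2, a3, KW_neg]

end sym

end Vale.Agent.P146.U.H979
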