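import Vale.Agent.P146.U.H979.DeepN
import Vale.Agent.P146.H713.DeepCS

/-!
The rank one inequality for the deep functional with unordered exponents.
-/

open MeasureTheory ProbabilityTheory

namespace Vale.Agent.P146.U.H979

open Vale.Agent.P157.Lv Vale.Agent.P146.H425 Vale.Agent.P146.H325 Vale.Agent.P146.H332
  Vale.Agent.P146.H712 Vale.Agent.P146.H816 Vale.Agent.P146.R1 Vale.Agent.P146.R1C Matrix

set_option linter.unusedSectionVars false

variable {n : ℕ} {k x y : ℝ} {m σ : ℕ → ℝ} {J : ℕ}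

/-- the rank one block for the deep functional -/
lemma kov_dpn (hE : ExN m J x y) (s : ℝ) (z : Pair n → ℝ) :
    k ^ 2 * y ^ 2 / 2 * ∑ i, ∑ j, ∑ p, ∑ q,
      (pA k SkS m σ J x s (fun τ => pr i j τ * pr p q τ) z -
        pA k SkS m σ J x s (pr i j) z * pA k SkS m σ J x s (pr p q) z) ^ 2 ≤
    ∑ e : Pair n, fr (fun i j => k * pK k SkS m σ J x s (pr i j) (SkS e) z) := by
  set M : Fin n → Fin n → Fin n → Fin n → ℝ := fun i j p q =>
    pA k SkS m σ J x s (fun τ => pr i j τ * pr p q τ) z with hM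
  set C : Fin n → Fin n → ℝ := fun i j => pA k SkS m σ J x s (pr i j) z with hC
  set K : Fin n → Fin n → Fin n → Fin n → ℝ := fun i j p q =>
    pK k SkS m σ J x s (pr i j) (pr p q) z with hK
  -- linear combinations of the pairs
  have q1 : ∀ v : Fin n × Fin n → ℝ, ∑ a, ∑ b, v a * (y * (M a.1 a.2 b.1 b.2 -
      C a.1 a.2 * C b.1 b.2)) * v b = y * (pA k SkS m σ J x s (fun τ =>
        (∑ a, v a * pr a.1 a.2 τ) * ∑ a, v a * pr a.1 a.2 τ) z -
        pA k SkS m σ J x s (fun τ => ∑ a, v a * pr a.1 a.2 τ) z ^ 2) := by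
    intro v
    have e1 : pA k SkS m σ J x s (fun τ => (∑ a : Fin n × Fin n, v a * pr a.1 a.2 τ) *
        ∑ a : Fin n × Fin n, v a * pr a.1 a.2 τ) z = ∑ a, ∑ b, v a * v b *
          M a.1 a.2 b.1 b.2 := by
      have e2 : (fun τ => (∑ a : Fin n × Fin n, v a * pr a.1 a.2 τ) *
          ∑ a : Fin n × Fin n, v a * pr a.1 a.2 τ) = fun τ => ∑ a : Fin n × Fin n,
            (1 : ℝ) * ∑ b : Fin n × Fin n, (v a * v b) * (pr a.1 a.2 τ * pr b.1 b.2 τ) := by
        funext τ
        rw [Finset.sum_mul_sum]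
        refine Finset.sum_congr rfl fun a _ => ?_
        rw [one_mul]
        exact Finset.sum_congr rfl fun b _ => by ring
      rw [e2, pA_lin hE Finset.univ (fun _ => (1 : ℝ)) (fun (a : Fin n × Fin n) τ =>
        ∑ b : Fin n × Fin n, (v a * v b) * (pr a.1 a.2 τ * pr b.1 b.2 τ))]
      refine Finset.sum_congr rfl fun a _ => ?_
      rw [one_mul, pA_lin hE Finset.univ (fun b => v a * v b)
        (fun (b : Fin n × Fin n) τ => pr a.1 a.2 τ * pr b.1 b.2 τ)]
    have e3 : pA k SkS m σ J x s (fun τ => ∑ a : Fin n × Fin n, v a * pr a.1 a.2 τ) z =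
        ∑ a, v a * C a.1 a.2 :=
      pA_lin hE Finset.univ v (fun (a : Fin n × Fin n) τ => pr a.1 a.2 τ) z
    rw [e1, e3, pow_two, Finset.sum_mul_sum, ← Finset.sum_sub_distrib, Finset.mul_sum]
    refine Finset.sum_congr rfl fun a _ => ?_
    rw [← Finset.sum_sub_distrib, Finset.mul_sum]
    exact Finset.sum_congr rfl fun b _ => by ring
  have q2 : ∀ v : Fin n × Fin n → ℝ, ∑ a, ∑ b, v a * K a.1 a.2 b.1 b.2 * v b =
      pK k SkS m σ J x s (fun τ => ∑ a, v a * pr a.1 a.2 τ)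
        (fun τ => ∑ a, v a * pr a.1 a.2 τ) z := by
    intro v
    rw [pK_bil hE Finset.univ Finset.univ v v (fun (a : Fin n × Fin n) τ => pr a.1 a.2 τ)
      (fun (a : Fin n × Fin n) τ => pr a.1 a.2 τ)]
    exact Finset.sum_congr rfl fun a _ => Finset.sum_congr rfl fun b _ => by ring
  have key := psd_sq_mono (q := Fin n × Fin n)
    (A := fun a b => y * (M a.1 a.2 b.1 b.2 - C a.1 a.2 * C b.1 b.2))
    (B := fun a b => K a.1 a.2 b.1 b.2)
    (fun a b => by
      have : M a.1 a.2 b.1 b.2 = M b.1 b.2 a.1 a.2 := by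
        simp only [hM]
        congr 1
        funext τ
        exact mul_comm _ _
      rw [this]
      ring)
    (fun v => by
      rw [q1]
      exact mul_nonneg hE.y0.le (sub_nonneg.2 (pK_kov hE _ z).2))
    (fun a b => pK_symm _ _ z)
    (fun v => by
      rw [q1, q2]
      exact (pK_kov hE _ z).1)
  -- the sum over all pairs of sites
  simp only [Fintype.sum_prod_type] at key
  set G : Fin n → Fin n → ℝ := fun p q => ∑ i, ∑ j, K i j p q ^ 2 with hG
  have g1 : ∀ p q, G p q = G q p := by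
    intro p q
    simp only [hG, hK]
    rw [pr_comm p q]
  have g2 : ∀ p, G p p = 0 := by
    intro p
    simp only [hG, hK]
    rw [pr_self p]
    refine Finset.sum_eq_zero fun i _ => Finset.sum_eq_zero fun j _ => ?_
    rw [pK_one hE]
    ring
  have g3 := sum_pairs G g1 g2
  have f1 : ∑ i, ∑ j, ∑ p, ∑ q, K i j p q ^ 2 = ∑ p, ∑ q, G p q := by
    simp only [hG]
    exact sum4_comm fun i j p q => K i j p q ^ 2
  rw [f1, g3] at key
  have f2 : ∑ e : Pair n, fr (fun i j => k * pK k SkS m σ J x s (pr i j) (SkS e) z) =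
      k ^ 2 * ∑ e : Pair n, G e.1.1 e.1.2 := by
    unfold fr
    simp only [hG, hK, Finset.mul_sum, mul_pow]
    rfl
  rw [f2]
  have f3 : ∑ i, ∑ j, ∑ p, ∑ q, (y * (M i j p q - C i j * C p q)) ^ 2 =
      y ^ 2 * ∑ i, ∑ j, ∑ p, ∑ q, (M i j p q - C i j * C p q) ^ 2 := by
    simp only [Finset.mul_sum, mul_pow]
  rw [f3] at key
  have hk : 0 ≤ k ^ 2 := sq_nonneg k
  have := mul_le_mul_of_nonneg_left key hk
  linarith

end Vale.Agent.P146.U.H979
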