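import Vale.Agent.P146.U.H979.DeepCSn
import Vale.Agent.P146.U.H504_Cum9

/-!
Root law, martingale family and smoothness of the deep systems with unordered exponents.
-/

open MeasureTheory ProbabilityTheory Matrix

namespace Vale.Agent.P146.U.H979

open Vale.Agent.P146.Cum hiding H_ev Root Root.fnu eg_H eg_qP eg_qT fn_deepCS fn_skCS i1 i1z i2
  i2z k2 k2_at m4_lg m4_pg qP qP_nonneg qP_one qP_pqm qT qT_eq qT_nonneg root_deep root_sk row_sq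

open Vale.Agent.P157.Lv Vale.Agent.P146.H425 Vale.Agent.P146.H325 Vale.Agent.P146.H712
open Vale.Agent.P146.R1 hiding Et Et4 Et4_123 Et4_124 Et4_add Et4_const Et4_const_mul Et4_cs
  Et4_mono Et4_nonneg Et4_sub Et_add Et_const Et_const_mul Et_cs Et_fst_eq Et_jensen Et_mono
  Et_nonneg Et_sub Et_weight Et_zero Eu Eu4 Eu4_123 Eu4_124 Eu4_add Eu4_cond Eu4_const_mul
  Eu4_iter Eu4_mono Eu4_nonneg Eu4_one_eq Eu4_one_eq' Eu4_one_pos Eu4_weight Eu_add Eu_const_mul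
  Eu_fst Eu_fst_eq Eu_iter Eu_mono Eu_nonneg Eu_one Eu_one_eq Eu_one_pos Eu_weight Eu_zero
  Eu_zero_one Lth Lth_zero Qt dn dn_pos e3_dn eg_Eu eg_Eu4
open Vale.Agent.P146.R1C hiding Av_lf_P0 Av_lf_P1 Av_lf_P2 Av_lf_P23 Av_lf_P23_row Av_lf_P3 Ca Cd
  En En_eq Ew Ew_eq Gb Nd P0 P0_sw P1 P1_sw P2 P2_sw P3 P3_sw Par Sa Sd dens
open Vale.Agent.P146.R1S hiding CS deepCS skCS skCS_A skCS_D skCS_DA skCS_F skCS_H skCS_T4 sm_skCS
open Vale.Agent.P146.U.R1 Vale.Agent.P146.U.R1C Vale.Agent.P146.U.R1S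

open Vale.Agent.P146.H722 (nuv)

open Vale.Agent.P146.U.Cum
open Vale.Agent.P146.H332 (lz)

set_option linter.unusedSectionVars false

variable {n : ℕ} {k x y : ℝ} {m : ℕ → ℝ} {J : ℕ}

/-- **the deep systems** -/
theorem root_deepn (hk : 0 < k) (σ : ℕ → ℝ) (hE : ExN m J x y) :
    Root (deepCSn n hk σ hE) (fun u τ => TD (lz k SkS) m σ (fun u => mg k SkS u τ) J u)
      (2 + 2 * J) :=
  ⟨(fn_lz k SkS).FDl J (hE.pos' le_rfl) hE.le, fun _ _ _ => rfl⟩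

theorem fn_deepCSn (hk : 0 < k) (σ : ℕ → ℝ) (hE : ExN m J x y) (s : ℝ) :
    Fn k SkS (R1.uu x s (deepCSn n hk σ hE).F) ((deepCSn n hk σ hE).mu s) (4 + 2 * J) := by
  have h1 := (root_deepn (n := n) hk σ hE).fnu s
  have h2 : (2 : ℝ) + 2 * J + 2 = 4 + 2 * J := by ring
  rw [h2] at h1
  exact h1

/-- the martingale family -/
theorem mt_deepCSn (hk : 0 < k) (σ : ℕ → ℝ) (hE : ExN m J x y) :
    Mt x (deepCSn n hk σ hE).F (deepCSn n hk σ hE).mu :=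
  mt_dpn k SkS m σ J x

/-- smoothness -/
theorem sm_deepCSn (hk : 0 < k) (σ : ℕ → ℝ) (hE : ExN m J x y) :
    ∃ (B L : ℝ) (HF TF : Pair n → Pair n → (Pair n → ℝ) → ℝ) (M : ℝ),
      Sm (deepCSn n hk σ hE).F (deepCSn n hk σ hE).D B L HF TF M :=
  ⟨_, _, _, _, _, sm_Fdp hE⟩

@[simp] lemma deepCSn_y (hk : 0 < k) (σ : ℕ → ℝ) (hE : ExN m J x y) :
    (deepCSn n hk σ hE).y = y := rfl

@[simp] lemma deepCSn_F (hk : 0 < k) (σ : ℕ → ℝ) (hE : ExN m J x y) :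
    (deepCSn n hk σ hE).F = FD (lz k SkS) m σ J := rfl

end Vale.Agent.P146.U.H979
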