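import Vale.Agent.P146.U.H979.FoA

/-!
The output `Fo` and the growth inequality `Gro` on the K-side (`S.y` is the window exponent), with
absolute constants.
-/

open MeasureTheory ProbabilityTheory

namespace Vale.Agent.P146.U.H979

open Vale.Agent.P157.Lv Vale.Agent.P146.H425 Vale.Agent.P146.H325 Vale.Agent.P146.H712
  Vale.Agent.P146.H816 Matrix
open Vale.Agent.P146.H332 hiding NN
open Vale.Agent.P146.R1 hiding Et Et4 Et4_123 Et4_124 Et4_add Et4_const Et4_const_mul Et4_cs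
  Et4_mono Et4_nonneg Et4_sub Et_add Et_const Et_const_mul Et_cs Et_fst_eq Et_jensen Et_mono
  Et_nonneg Et_sub Et_weight Et_zero Eu Eu4 Eu4_123 Eu4_124 Eu4_add Eu4_cond Eu4_const_mul
  Eu4_iter Eu4_mono Eu4_nonneg Eu4_one_eq Eu4_one_eq' Eu4_one_pos Eu4_weight Eu_add Eu_const_mul
  Eu_fst Eu_fst_eq Eu_iter Eu_mono Eu_nonneg Eu_one Eu_one_eq Eu_one_pos Eu_weight Eu_zero
  Eu_zero_one Lth Lth_zero Qt dn dn_pos e3_dn eg_Eu eg_Eu4 Lth_le Lth_ge Lth_nonneg Lth_half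
  Et_xi_low tilt Ex_xi_ge
open Vale.Agent.P146.R1C hiding Ca Cd En En_add En_const En_const_mul En_eq En_mono En_nonneg
  En_pow_le Ew Ew1_pos Ew_add Ew_const_mul Ew_eq Ew_mono Ew_nonneg Fo Fo.N0 Fo.NN_le Fo.Tp Fo.mom
  Fo.n0 Fo.xr Fo.ρ1 Fo.ρA Gb Nd P0 P0_sw P1 P1_sw P2 P2_sw P3 P3_sw Par Par.Ok Sa Sd den_pos dens
  eg_den kk_NN
open Vale.Agent.P146.R1S hiding CS
open Vale.Agent.P146.U.R1 Vale.Agent.P146.U.R1C Vale.Agent.P146.U.R1S Vale.Agent.P146.U.R1.Gr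

set_option linter.unusedSectionVars false

/-- **K-side: regular datum with growth -> `Fo` and `Gro`**, `A` any large constant. -/
theorem fo_K {β : ℝ} (hβ : 0 < β) {Λr K N : ℝ} (hΛ : 1 ≤ Λr) (hN : 150 * Λr ≤ N) (hK : 6 ≤ K) :
    ∃ A₀ : ℝ, 2 ≤ A₀ ∧ ∀ A : ℝ, A₀ ≤ A → ∃ Y₀ : ℝ, 1 ≤ Y₀ ∧ ∃ n₀ : ℕ, ∀ n : ℕ, n₀ ≤ n →
      ∀ (a η T ρ : ℝ) (S : CS n (kk n β) a) (B L M : ℝ)
        (HF TF : Pair n → Pair n → (Pair n → ℝ) → ℝ),
      S.y = a → Sm S.F S.D B L HF TF M → Reg a η T ρ Λr S.F →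
      PP ((1 - η) * a) (N * a) (√(1 - K * T)) (√(K * T)) S.F -
        PP ((1 - η) * a) a (√(1 - T)) (√T) S.F ≤ N * K / 24576 * (a * ρ * T) →
      Y₀ ≤ yy a η T ρ → a * (n : ℝ) ^ ((1 : ℝ) / 22) ≤ 1 → 1 / (n : ℝ) ^ 2 ≤ T → T ≤ 1 / A →
      ∃ s1 s2 δ, 1 - T / 2 < s1 ∧ s1 + T / 8 ≤ s2 ∧ s2 < 1 - T / 4 ∧
        (qr a η T Λr s1 s2).Ok ∧
        Fo n β A δ T ρ (yy a η T ρ) S.y (qr a η T Λr s1 s2) S.F S.A S.DA ∧
        Gro n β A ρ (qr a η T Λr s1 s2) S.F S.A := by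
  obtain ⟨A₁, hA₁, herr⟩ := err_num Λr hΛ
  obtain ⟨n1, hn1⟩ := exists_nat_ge (β ^ 2)
  have hβ2 := sq_nonneg β
  refine ⟨A₁ + 4096 * K + 256 + 144 * Λr + β ^ 2, by linarith, fun A hA => ?_⟩
  refine ⟨max (A ^ 200) 400, by
    have : (400 : ℝ) ≤ max (A ^ 200) 400 := le_max_right _ _
    linarith, max n1 2, fun n hn a η T ρ S B L M HF TF hSy hS r hD hY ha hT hTA => ?_⟩
  have hnn1 : n1 ≤ n := (le_max_left _ _).trans hn
  have hn2 : 2 ≤ n := (le_max_right _ _).trans hn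
  have hA1 : A₁ ≤ A := by linarith
  have hAK : 4096 * K ≤ A := by linarith
  have hA0 : 0 < A := by linarith
  have h200 : A ^ 200 ≤ yy a η T ρ := (le_max_left _ _).trans hY
  have h400 : 400 ≤ yy a η T ρ := (le_max_right _ _).trans hY
  have he := herr A (yy a η T ρ) (yy a η T ρ) hA1 h200 le_rfl
  have hδΛ : yy a η T ρ ^ 1000 * (3 * Real.exp (-(yy a η T ρ / (1024 * Λr)))) ≤ 1 := by
    rw [mul_comm]
    exact he
  have hyL : yy a η T ρ ≤ S.y ^ 2 * ρ * T := by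
    rw [hSy]
    have h1 := r.η0
    have h2 : 0 ≤ a ^ 2 * ρ * T := by
      have := r.x0
      have := r.ρ0
      have := r.T0
      positivity
    unfold yy
    have h3 := mul_nonneg h1 h2
    linarith
  have hδ0 : 0 ≤ 3 * Real.exp (-(yy a η T ρ / (1024 * Λr))) := by positivity
  have hδ1 : 3 * Real.exp (-(yy a η T ρ / (1024 * Λr))) ≤ 1 / 2 := by
    have h1 : (2 : ℝ) ≤ yy a η T ρ ^ 1000 := by
      have h2 : (1 : ℝ) ≤ yy a η T ρ := by linarith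
      exact le_trans (by linarith) (le_self_pow₀ h2 (by norm_num))
    have h2 := mul_le_mul_of_nonneg_right h1 hδ0
    linarith
  have hKT : K * T ≤ 1 := by
    have h1 : K * T ≤ A * (1 / A) := mul_le_mul (by linarith) hTA r.T0.le hA0.le
    rwa [mul_one_div_cancel hA0.ne'] at h1
  obtain ⟨s1, s2, h1, h12, h2, f⟩ := fo_of (A := A) (Λ := yy a η T ρ)
    (δ := 3 * Real.exp (-(yy a η T ρ / (1024 * Λr)))) hn2 hβ
    (hn1.trans (by exact_mod_cast hnn1)) S hS r ha hT (by linarith) h200 hyL h400 le_rfl hδΛ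
  exact ⟨s1, s2, _, h1, h12, h2, qr_ok r S.x1 h1 h12 h2, f,
    gro_of hn2 hβ S hS r hN hK hKT (by linarith) hδ1 hAK hD h1 h12 h2⟩

end Vale.Agent.P146.U.H979
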