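import Vale.Agent.P146.U.H979.FoA
import Vale.Agent.P146.U.H979.DeepRoot
import Vale.Agent.P146.U.Spec

/-!
`LRho`: the inequality (L) at a regular window of the SK free energy, from the inequality (L) for
position systems (uniform in the inverse temperature).
-/

open MeasureTheory ProbabilityTheory

namespace Vale.Agent.P146.U.H979

open Vale.Agent.P157.Lv Vale.Agent.P146.H425 Vale.Agent.P146.H325 Vale.Agent.P146.H712
  Vale.Agent.P146.H816 Matrix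
open Vale.Agent.P146.H332 hiding NN
open Vale.Agent.P146.R1 hiding Et Et4 Et4_123 Et4_124 Et4_add Et4_const Et4_const_mul Et4_cs
  Et4_mono Et4_nonneg Et4_sub Et_add Et_const Et_const_mul Et_cs Et_fst_eq Et_jensen Et_mono
  Et_nonneg Et_sub Et_weight Et_zero Eu Eu4 Eu4_123 Eu4_124 Eu4_add Eu4_cond Eu4_const_mul
  Eu4_iter Eu4_mono Eu4_nonneg Eu4_one_eq Eu4_one_eq' Eu4_one_pos Eu4_weight Eu_add Eu_const_mul
  Eu_fst Eu_fst_eq Eu_iter Eu_mono Eu_nonneg Eu_one Eu_one_eq Eu_one_pos Eu_weight Eu_zero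
  Eu_zero_one Lth Lth_zero Qt dn dn_pos e3_dn eg_Eu eg_Eu4 Lth_le Lth_ge Lth_nonneg Lth_half
  Et_xi_low tilt Ex_xi_ge
open Vale.Agent.P146.R1C hiding Ca Cd En En_add En_const En_const_mul En_eq En_mono En_nonneg
  En_pow_le Ew Ew1_pos Ew_add Ew_const_mul Ew_eq Ew_mono Ew_nonneg Fo Fo.N0 Fo.NN_le Fo.Tp Fo.mom
  Fo.n0 Fo.xr Fo.ρ1 Fo.ρA Gb Nd P0 P0_sw P1 P1_sw P2 P2_sw P3 P3_sw Par Par.Ok Sa Sd den_pos dens
  eg_den kk_NN
open Vale.Agent.P146.R1S hiding CS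
open Vale.Agent.P146.U.R1 Vale.Agent.P146.U.R1C Vale.Agent.P146.U.R1S Vale.Agent.P146.U.R1.Gr

set_option linter.unusedSectionVars false

/-- **The inequality (L) for position systems**, with constants which are uniform in the inverse
temperature. -/
def LamU (b0 b1 Γ : ℝ) (m : ℕ) : Prop :=
  ∃ C : ℝ, 1 ≤ C ∧ ∃ n₀ : ℕ, ∀ n : ℕ, n₀ ≤ n → ∀ β : ℝ, b0 ≤ β → β ≤ b1 →
    ∀ (q : Par) (S : CS n (kk n β) q.x) (A δ T ρ Λ B L M : ℝ)
      (HF TF : Pair n → Pair n → (Pair n → ℝ) → ℝ),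
      2 ≤ A → Sm S.F S.D B L HF TF M →
      (∀ s : ℝ, Cum.Fn (kk n β) SkS (uu q.x s S.F) (S.mu s) Γ) →
      Mt q.x S.F S.mu →
      Fo n β A δ T ρ Λ S.y q S.F S.A S.DA →
        T ≤ C * A ^ m * (√(1 / (n * T)) + q.x * (√(NN n β ρ) / n) + (√(NN n β ρ) / n) ^ 2 +
          1 / n)

/-- the error of the tilt is negligible -/
lemma tilt_num {b A Y C : ℝ} {k : ℕ} (hb : 1 ≤ b) (hA : 1 ≤ A) (hk : 2 ≤ k)
    (hC : 1024 * (2 + 200000 * b) ≤ C) (hY : C * A ^ k ≤ Y) :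
    ((b * A) ^ 200) ^ 1000 * (3 * Real.exp (-(Y / (1024 * A)))) ≤ 1 := by
  have hA0 : 0 < A := by linarith
  have hz : 0 < b * A := by positivity
  have h1 : ((b * A) ^ 200) ^ 1000 ≤ Real.exp (200000 * (b * A)) := by
    have e1 : b * A ≤ Real.exp (b * A) := by linarith [Real.add_one_le_exp (b * A)]
    rw [← pow_mul]
    calc (b * A) ^ (200 * 1000) ≤ Real.exp (b * A) ^ (200 * 1000) :=
          pow_le_pow_left₀ hz.le e1 _
      _ = Real.exp (200000 * (b * A)) := by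
          rw [← Real.exp_nat_mul]
          norm_num
  have h2 : (3 : ℝ) ≤ Real.exp 2 := by linarith [Real.add_one_le_exp 2]
  have h3 : 2 + 200000 * (b * A) ≤ Y / (1024 * A) := by
    rw [le_div_iff₀ (by positivity)]
    have h4 : A ^ 2 ≤ A ^ k := pow_le_pow_right₀ hA hk
    have h5 : 1024 * (2 + 200000 * b) * A ^ 2 ≤ Y := by
      have hC0 : 0 ≤ C := by
        have : 0 ≤ 1024 * (2 + 200000 * b) := by positivity
        linarith
      exact (mul_le_mul hC h4 (by positivity) hC0).trans hY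
    nlinarith
  calc ((b * A) ^ 200) ^ 1000 * (3 * Real.exp (-(Y / (1024 * A))))
      ≤ Real.exp (200000 * (b * A)) * (Real.exp 2 * Real.exp (-(Y / (1024 * A)))) := by gcongr
    _ = Real.exp (200000 * (b * A) + (2 + -(Y / (1024 * A)))) := by
        rw [Real.exp_add, Real.exp_add]
    _ ≤ Real.exp 0 := Real.exp_le_exp.2 (by linarith)
    _ = 1 := Real.exp_zero

lemma NN_sqrt {n : ℕ} (hn : 0 < n) {β : ℝ} (hβ : 0 < β) (ρ : ℝ) :
    √(NN n β ρ) / n = √2 / β * √(ρ / n) := by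
  have hn0 : (0 : ℝ) < n := Nat.cast_pos.2 hn
  have e1 : NN n β ρ = (n / β) ^ 2 * (2 * (ρ / n)) := by
    unfold NN
    field_simp
  rw [e1, Real.sqrt_mul (sq_nonneg _), Real.sqrt_sq (by positivity),
    Real.sqrt_mul (by norm_num : (0 : ℝ) ≤ 2)]
  field_simp

/-- The one-layer system at the horizon `u`. -/
noncomputable def winS (n : ℕ) {β u a y : ℝ} (hk : 0 < kk n (β * √u))
    (hE : ExN (fun _ => y) 1 a y) : CS n (kk n (β * √u)) a :=
  deepCSn n hk (fun _ => √((1 - u) / u)) hE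

lemma x22_of {n : ℕ} (hn : 0 < n) {a : ℝ} (ha : a ≤ (n : ℝ) ^ (-(1 / 20) : ℝ)) :
    a * (n : ℝ) ^ ((1 : ℝ) / 22) ≤ 1 := by
  have hnr : (0 : ℝ) < n := Nat.cast_pos.2 hn
  have hnr1 : (1 : ℝ) ≤ n := by exact_mod_cast hn
  calc a * (n : ℝ) ^ ((1 : ℝ) / 22) ≤ (n : ℝ) ^ (-(1 / 20) : ℝ) * (n : ℝ) ^ ((1 : ℝ) / 22) :=
        mul_le_mul_of_nonneg_right ha (Real.rpow_nonneg hnr.le _)
    _ = (n : ℝ) ^ (-(1 / 20) + 1 / 22 : ℝ) := (Real.rpow_add hnr _ _).symm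
    _ ≤ 1 := Real.rpow_le_one_of_one_le_of_nonpos hnr1 (by norm_num)

lemma n2_of {n : ℕ} (hn : 0 < n) {T : ℝ} (hT : (n : ℝ) ^ (-(9 / 10) : ℝ) ≤ T) :
    1 / (n : ℝ) ^ 2 ≤ T := by
  have hnr : (0 : ℝ) < n := Nat.cast_pos.2 hn
  have hnr1 : (1 : ℝ) ≤ n := by exact_mod_cast hn
  refine le_trans ?_ hT
  rw [one_div, ← Real.rpow_natCast, ← Real.rpow_neg hnr.le]
  exact Real.rpow_le_rpow_of_exponent_le hnr1 (by norm_num)

lemma sq_mul_sqrt_le {β u : ℝ} (hu : 0 ≤ u) (hu1 : u ≤ 1) : (β * √u) ^ 2 ≤ β ^ 2 := by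
  rw [mul_pow, Real.sq_sqrt hu]
  nlinarith [sq_nonneg β]

/-- **The output of the block F at a regular window.** -/
theorem fo_win {n : ℕ} {β x a y τ T ρ A C b : ℝ} {k : ℕ} (hn : 2 ≤ n) (hβ : 0 < β)
    (hβn : β ^ 2 ≤ n) (hx : 0 < x) (hxa : x ≤ a) (ha : a ≤ (n : ℝ) ^ (-(1 / 20) : ℝ))
    (hy : 0 < y) (hτ : 0 ≤ τ) (hτ1 : τ ≤ 1 / 2) (hT : (n : ℝ) ^ (-(9 / 10) : ℝ) ≤ T)
    (hT1 : T ≤ 1 / 4) (hρ : 0 < ρ) (hA : 1 ≤ A) (r : RegW n β y τ x a T ρ A)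
    (hk : 0 < kk n (β * √(1 - τ))) (hE : ExN (fun _ => y) 1 a y) (hkk : 200 ≤ k)
    (hb : 400 + β ^ 2 ≤ b) (hC1 : b ^ 200 ≤ C) (hC2 : 1024 * (2 + 200000 * b) ≤ C)
    (hY1 : C * A ^ k ≤ x * a * ρ * T) (hY2 : C * A ^ k ≤ y ^ 2 * ρ * T) :
    ∃ s1 s2 δ, Fo n (β * √(1 - τ)) (b * A) δ (T / (1 - τ)) ((1 - τ) * ρ)
      ((b * A) ^ 200) y (qr a (1 - x / a) (T / (1 - τ)) A s1 s2)
      (winS n hk hE).F (winS n hk hE).A (winS n hk hE).DA := by
  have hn0 : 0 < n := by omega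
  have hT0 : 0 < T := (Real.rpow_pos_of_pos (Nat.cast_pos.2 hn0) _).trans_le hT
  have ha0 : 0 < a := hx.trans_le hxa
  have hu : 0 < 1 - τ := by linarith only [hτ1]
  have hu1 : 1 - τ ≤ 1 := by linarith only [hτ]
  have hβ2 := sq_nonneg β
  have hb4 : 400 ≤ b := by linarith only [hb, hβ2]
  have hb1 : 1 ≤ b := by linarith only [hb4]
  have hTu : T ≤ 1 - τ := by linarith only [hT1, hτ1]
  have hβ' : 0 < β * √(1 - τ) := mul_pos hβ (Real.sqrt_pos.2 hu)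
  have rr : Reg a (1 - x / a) (T / (1 - τ)) ((1 - τ) * ρ) A (winS n hk hE).F :=
    RegW.reg r hx hxa hy (by linarith only [hτ1]) hT0 hTu hA hρ
  have hyy : yy a (1 - x / a) (T / (1 - τ)) ((1 - τ) * ρ) = x * a * ρ * T := by
    unfold yy
    field_simp
    ring
  have hAm : A ^ 200 ≤ A ^ k := pow_le_pow_right₀ hA hkk
  have hAm1 : (1 : ℝ) ≤ A ^ k := one_le_pow₀ hA
  have hC0 : 400 ≤ C := by linarith only [hC2, hb4]
  have hsq := sq_mul_sqrt_le (β := β) hu.le hu1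
  have g1 : 256 + 144 * A + (β * √(1 - τ)) ^ 2 ≤ b * A := by
    have h1 : (400 + β ^ 2) * A ≤ b * A := mul_le_mul_of_nonneg_right hb (by linarith only [hA])
    have h2 : β ^ 2 * 1 ≤ β ^ 2 * A := mul_le_mul_of_nonneg_left hA hβ2
    linarith only [h1, h2, hsq, hA]
  have g2 : (b * A) ^ 200 ≤ y ^ 2 * ((1 - τ) * ρ) * (T / (1 - τ)) := by
    have e1 : y ^ 2 * ((1 - τ) * ρ) * (T / (1 - τ)) = y ^ 2 * ρ * T := by
      field_simp
    rw [e1, mul_pow]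
    exact (mul_le_mul hC1 hAm (by positivity) (by linarith only [hC0])).trans hY2
  have g3 : 400 ≤ yy a (1 - x / a) (T / (1 - τ)) ((1 - τ) * ρ) := by
    rw [hyy]
    refine le_trans ?_ hY1
    have := mul_le_mul hC0 hAm1 zero_le_one (by linarith only [hC0])
    linarith only [this]
  have g4 : ((b * A) ^ 200) ^ 1000 * (3 * Real.exp (-(yy a (1 - x / a)
      (T / (1 - τ)) ((1 - τ) * ρ) / (1024 * A)))) ≤ 1 := by
    rw [hyy]
    exact tilt_num hb1 hA (by omega) hC2 hY1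
  have g5 : 1 / (n : ℝ) ^ 2 ≤ T / (1 - τ) := by
    refine (n2_of hn0 hT).trans ?_
    rw [le_div_iff₀ hu]
    exact mul_le_of_le_one_right hT0.le hu1
  obtain ⟨s1, s2, -, -, -, f⟩ := fo_of hn hβ' (hsq.trans hβn) (winS n hk hE) (sm_Fdp hE) rr
    (x22_of hn0 ha) g5 g1 le_rfl g2 g3 le_rfl g4
  exact ⟨s1, s2, _, f⟩

lemma lam_num {β : ℝ} (hβ : 0 < β) {n : ℕ} (hn : 0 < n) {u T a ρ : ℝ} (hu : 0 < u) (hu1 : u ≤ 1)
    (hT : 0 < T) (ha : 0 ≤ a) (hρ : 0 ≤ ρ) :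
    √(1 / (n * (T / u))) + a * (√(NN n (β * √u) (u * ρ)) / n) +
        (√(NN n (β * √u) (u * ρ)) / n) ^ 2 + 1 / n ≤
      (1 + √2 / β + 2 / β ^ 2) * (1 / √(n * T) + a * √(ρ / n) + ρ / n + 1 / n) := by
  have hnr : (0 : ℝ) < n := Nat.cast_pos.2 hn
  rw [NN_win n hβ.ne' hu ρ, NN_sqrt hn hβ]
  set D : ℝ := 1 + √2 / β + 2 / β ^ 2 with hD
  have q1 : 0 ≤ √2 / β := by positivity
  have q2 : 0 ≤ 2 / β ^ 2 := by positivity
  have hD1 : 1 ≤ D := by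
    rw [hD]
    linarith
  have hTT : T ≤ T / u := by
    rw [le_div_iff₀ hu]
    nlinarith
  have t1 : √(1 / (n * (T / u))) ≤ 1 / √(n * T) := by
    have h1 : √(1 / (n * (T / u))) ≤ √(1 / (n * T)) := by
      refine Real.sqrt_le_sqrt ?_
      gcongr
    refine h1.trans (le_of_eq ?_)
    rw [Real.sqrt_div zero_le_one, Real.sqrt_one]
  have s0 : 0 ≤ √(ρ / n) := Real.sqrt_nonneg _
  have hρn : 0 ≤ ρ / n := by positivity
  have t0 : 0 ≤ 1 / √(n * T) := by positivity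
  have t3 : (√2 / β * √(ρ / n)) ^ 2 = 2 / β ^ 2 * (ρ / n) := by
    rw [mul_pow, div_pow, Real.sq_sqrt (by norm_num), Real.sq_sqrt hρn]
  rw [t3]
  have q3 : 0 ≤ a * √(ρ / n) := by positivity
  have q4 : (0 : ℝ) ≤ 1 / n := by positivity
  have r1 : 1 / √(n * T) ≤ D * (1 / √(n * T)) := le_mul_of_one_le_left t0 hD1
  have r2 : √2 / β * (a * √(ρ / n)) ≤ D * (a * √(ρ / n)) :=
    mul_le_mul_of_nonneg_right (by rw [hD]; linarith) q3
  have r3 : 2 / β ^ 2 * (ρ / n) ≤ D * (ρ / n) :=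
    mul_le_mul_of_nonneg_right (by rw [hD]; linarith) hρn
  have r4 : (1 : ℝ) / n ≤ D * (1 / n) := le_mul_of_one_le_left q4 hD1
  have r5 : a * (√2 / β * √(ρ / n)) = √2 / β * (a * √(ρ / n)) := by ring
  rw [r5, mul_add, mul_add, mul_add]
  linarith

/-- **(L) at a regular window of the SK free energy.** -/
theorem lrho_of {β : ℝ} (hβ : 0 < β) {m : ℕ} (hL : LamU (β / 2) β 6 m) : LRho β := by
  obtain ⟨C0, hC0, n0, h0⟩ := hL
  obtain ⟨n1, hn1⟩ := exists_nat_ge (β ^ 2)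
  obtain ⟨b, hb⟩ : ∃ b, b = 400 + β ^ 2 := ⟨_, rfl⟩
  obtain ⟨D, hD⟩ : ∃ D, D = 1 + √2 / β + 2 / β ^ 2 := ⟨_, rfl⟩
  have hb4 : 400 ≤ b := by
    have := sq_nonneg β
    linarith only [hb, this]
  have hD1 : 0 ≤ D := by
    rw [hD]
    positivity
  obtain ⟨C, hC⟩ : ∃ C, C = C0 * b ^ m * D + b ^ 200 + 1024 * (2 + 200000 * b) := ⟨_, rfl⟩
  have p1 : 0 ≤ C0 * b ^ m * D := by positivity
  have p2 : 0 ≤ b ^ 200 := by positivity
  have p3 : 0 < 1024 * (2 + 200000 * b) := by positivity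
  have c0 : 0 < C := by linarith only [hC, p1, p2, p3]
  have c1 : b ^ 200 ≤ C := by linarith only [hC, p1, p2, p3]
  have c2 : 1024 * (2 + 200000 * b) ≤ C := by linarith only [hC, p1, p2, p3]
  have c3 : C0 * b ^ m * D ≤ C := by linarith only [hC, p1, p2, p3]
  refine ⟨C, ((m + 200 : ℕ) : ℝ), max n0 (max n1 2), c0, by positivity,
    fun n hn x a y τ T ρ A hx hxa hy hya ha hτ hτ1 hT hT1 hρ hA r hY1 hY2 => ?_⟩
  rw [Real.rpow_natCast] at hY1 hY2 ⊢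
  have hnn0 : n0 ≤ n := (le_max_left _ _).trans hn
  have hnn1 : n1 ≤ n := ((le_max_left _ _).trans (le_max_right _ _)).trans hn
  have hn2 : 2 ≤ n := ((le_max_right _ _).trans (le_max_right _ _)).trans hn
  have hn0 : 0 < n := by omega
  have hnr1 : (1 : ℝ) ≤ n := by exact_mod_cast hn0
  have hT0 : 0 < T := (Real.rpow_pos_of_pos (Nat.cast_pos.2 hn0) _).trans_le hT
  have hu : 0 < 1 - τ := by linarith only [hτ1]
  have hu1 : 1 - τ ≤ 1 := by linarith only [hτ]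
  have hsu1 : √(1 - τ) ≤ 1 := Real.sqrt_le_one.2 hu1
  have hsu2 : 1 / 2 ≤ √(1 - τ) := by
    rw [show (1 : ℝ) / 2 = √(1 / 4) by
      rw [show (1 : ℝ) / 4 = (1 / 2) ^ 2 by norm_num, Real.sqrt_sq (by norm_num)]]
    exact Real.sqrt_le_sqrt (by linarith only [hτ1])
  have hk : 0 < kk n (β * √(1 - τ)) := by
    have : 0 < √(1 - τ) := by linarith only [hsu2]
    have : (0 : ℝ) < n := by linarith only [hnr1]
    unfold kk
    positivity
  have ha1 : a ≤ 1 := ha.trans (Real.rpow_le_one_of_one_le_of_nonpos hnr1 (by norm_num))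
  have hE : ExN (fun _ => y) 1 a y :=
    ⟨hy, hya, ha1, fun _ _ => le_rfl, fun _ _ => hya.trans ha1⟩
  obtain ⟨s1, s2, δ, f⟩ := fo_win (C := C) (k := m + 200) (b := b) hn2 hβ
    (hn1.trans (by exact_mod_cast hnn1)) hx hxa ha hy hτ hτ1 hT hT1 hρ hA r hk hE (by omega)
    hb.ge c1 c2 hY1 hY2
  have hβ1 : β * √(1 - τ) ≤ β * 1 := mul_le_mul_of_nonneg_left hsu1 hβ.le
  have hβ2 : β * (1 / 2) ≤ β * √(1 - τ) := mul_le_mul_of_nonneg_left hsu2 hβ.le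
  have hbA : 400 * 1 ≤ b * A := mul_le_mul hb4 hA zero_le_one (by linarith only [hb4])
  have key := h0 n hnn0 (β * √(1 - τ)) (by linarith only [hβ2]) (by linarith only [hβ1])
    (qr a (1 - x / a) (T / (1 - τ)) A s1 s2) (winS n hk hE) (b * A) δ (T / (1 - τ))
    ((1 - τ) * ρ) ((b * A) ^ 200) _ _ _ _ _ (by linarith only [hbA]) (sm_Fdp hE)
    (fun s => by
      have h1 := fn_deepCSn (n := n) hk (fun _ => √((1 - (1 - τ)) / (1 - τ))) hE s
      have h2 : (4 : ℝ) + 2 * ((1 : ℕ) : ℝ) = 6 := by norm_num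
      rw [h2] at h1
      exact h1)
    (mt_deepCSn hk _ hE) f
  have hA0 : 0 ≤ A := by linarith only [hA]
  have hb0 : 0 ≤ b := by linarith only [hb4]
  have hnum := lam_num hβ hn0 hu hu1 hT0 (hx.trans_le hxa).le hρ.le
  rw [← hD] at hnum
  have hE0 : 0 ≤ 1 / √(n * T) + a * √(ρ / n) + ρ / n + 1 / n := by
    have := (hx.trans_le hxa).le
    positivity
  have hTT : T ≤ T / (1 - τ) := by
    rw [le_div_iff₀ hu]
    exact mul_le_of_le_one_right hT0.le hu1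
  calc T ≤ T / (1 - τ) := hTT
    _ ≤ C0 * (b * A) ^ m * (√(1 / (n * (T / (1 - τ)))) +
        a * (√(NN n (β * √(1 - τ)) ((1 - τ) * ρ)) / n) +
        (√(NN n (β * √(1 - τ)) ((1 - τ) * ρ)) / n) ^ 2 + 1 / n) := key
    _ ≤ C0 * (b * A) ^ m * (D * (1 / √(n * T) + a * √(ρ / n) + ρ / n + 1 / n)) :=
        mul_le_mul_of_nonneg_left hnum (by positivity)
    _ = C0 * b ^ m * D * A ^ m * (1 / √(n * T) + a * √(ρ / n) + ρ / n + 1 / n) := by
        rw [mul_pow]; ring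
    _ ≤ C * A ^ (m + 200) * (1 / √(n * T) + a * √(ρ / n) + ρ / n + 1 / n) := by
        refine mul_le_mul_of_nonneg_right ?_ hE0
        exact mul_le_mul c3 (pow_le_pow_right₀ hA (by omega)) (by positivity) c0.le

end Vale.Agent.P146.U.H979
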