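import Vale.Agent.P146.U.H979.Win
import Vale.Agent.P146.U.H979.DeepCSn
import Vale.Agent.P146.U.Spec

/-!
From a regular window `RegW` of the SK free energy to the regular datum of helper622, for the
one-layer system seen at the horizon `1 - τ`.
-/

open MeasureTheory ProbabilityTheory

namespace Vale.Agent.P146.U.H979

open Vale.Agent.P157.Lv Vale.Agent.P146 Vale.Agent.P146.H425 Vale.Agent.P146.U
open Vale.Agent.P146.R1 hiding Et Et4 Et4_123 Et4_124 Et4_add Et4_const Et4_const_mul Et4_cs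
  Et4_mono Et4_nonneg Et4_sub Et_add Et_const Et_const_mul Et_cs Et_fst_eq Et_jensen Et_mono
  Et_nonneg Et_sub Et_weight Et_zero Eu Eu4 Eu4_123 Eu4_124 Eu4_add Eu4_cond Eu4_const_mul
  Eu4_iter Eu4_mono Eu4_nonneg Eu4_one_eq Eu4_one_eq' Eu4_one_pos Eu4_weight Eu_add Eu_const_mul
  Eu_fst Eu_fst_eq Eu_iter Eu_mono Eu_nonneg Eu_one Eu_one_eq Eu_one_pos Eu_weight Eu_zero
  Eu_zero_one Lth Lth_zero Qt dn dn_pos e3_dn eg_Eu eg_Eu4
open Vale.Agent.P146.H785 (Ax HW lf)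
open Vale.Agent.P146.H325 Vale.Agent.P146.H332
open Vale.Agent.P146.U.R1

set_option linter.unusedSectionVars false

section gen

variable {κ : Type} [Fintype κ] {F U : (κ → ℝ) → ℝ} {D : κ → (κ → ℝ) → ℝ}
  {B L x a u T ρ Λ η t0 t1 s : ℝ}

/-- the mean of `x ξ` is the share of the slice `[t0, t1]` -/
lemma Ex_xi_SS (h : C11 F D B L) (hx : 0 < x) (h01 : t0 ≤ t1) (h1 : t1 ≤ s) (hs : s ≤ 1) :
    Et x 0 η t0 t1 s F (fun z0 z1 _ => xi x t0 t1 F z0 z1) =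
      x ^ 2 / 2 * SS ((1 - η) * x) x (√t0) (√(t1 - t0)) (W x √(1 - t1) F) := by
  rw [Ex_xi_eq h hx h01 h1 hs]
  have e : uu x t0 F = W x (√(t1 - t0)) (uu x t1 F) := by
    funext y
    refine (W_W h.lip h.B0 hx ?_ y).symm
    rw [Real.sq_sqrt (by linarith), Real.sq_sqrt (by linarith), Real.sq_sqrt (by linarith)]
    ring
  unfold SS EE
  rw [e]
  have h2 : x ≠ 0 := hx.ne'
  have e2 : W x √(1 - t1) F = uu x t1 F := rfl
  rw [e2]
  field_simp

/-- **A regular datum from the share of the first half of the window.** -/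
theorem reg_of_SS (h : C11 F D B L) (hx : 0 < x) (hη0 : 0 ≤ η) (hη1 : η < 1)
    (hT : 0 < T) (hT1 : T ≤ 1) (hΛ : 1 ≤ Λ) (hρ0 : 0 < ρ)
    (hr : ρ * T / 2 ≤ SS ((1 - η) * x) x (√(1 - T)) (√(T / 2)) (W x √(T / 2) F))
    (hreg : PP ((1 - η) * x) (2 * x) (√(1 - T)) (√T) F -
      PP ((1 - η) * x) x (√(1 - T)) (√T) F ≤ x / 2 * (Λ * ρ * T)) : Reg x η T ρ Λ F := by
  refine ⟨hx, hη0, hη1, hT, hT1, hΛ, hρ0, ?_, hreg⟩
  rw [Ex_xi_SS h hx (by linarith) le_rfl (by linarith),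
    show 1 - T / 2 - (1 - T) = T / 2 by ring, show 1 - (1 - T / 2) = T / 2 by ring]
  have := mul_le_mul_of_nonneg_left hr (by positivity : 0 ≤ x ^ 2 / 2)
  refine le_trans (le_of_eq ?_) this
  ring

/-- The same at the horizon `u`: the rescaled function `sc √u U`. -/
theorem reg_of_SS_win (h : C11 U D B L) (hx : 0 < x) (hxa : x ≤ a) (hT : 0 < T) (hTu : T ≤ u)
    (hΛ : 1 ≤ Λ) (hρ0 : 0 < ρ)
    (hr : ρ * T / 2 ≤ SS x a √(u - T) √(T / 2) (W a √(T / 2) U))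
    (hreg : PP x (2 * a) √(u - T) √T U - PP x a √(u - T) √T U ≤ a / 2 * (Λ * ρ * T)) :
    Reg a (1 - x / a) (T / u) (u * ρ) Λ (sc √u U) := by
  have ha : 0 < a := hx.trans_le hxa
  have hu : 0 < u := hT.trans_le hTu
  have e1 : (1 - (1 - x / a)) * a = x := by
    field_simp
    ring
  have e2 : u * ρ * (T / u) = ρ * T := by
    field_simp
  refine reg_of_SS (c11_sc h (Real.sqrt_nonneg u)) ha ?_ ?_ (div_pos hT hu)
    ((div_le_one hu).2 hTu) hΛ (mul_pos hu hρ0) ?_ ?_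
  · rw [sub_nonneg, div_le_one ha]
    exact hxa
  · have := div_pos hx ha
    linarith
  · rw [e1, e2, W_sc, show T / u / 2 = T / 2 / u by ring, sqrt_win' hu, SS_sc, sqrt_win hu,
      sqrt_win' hu]
    exact hr
  · rw [mul_assoc Λ, e2, ← mul_assoc Λ, e1, PP_win hu, PP_win hu]
    exact hreg

end gen

variable {n : ℕ} {β y τ x a T ρ A : ℝ}

/-- **The regular window of the SK free energy.** -/
theorem RegW.reg {β : ℝ} (r : RegW n β y τ x a T ρ A) (hx : 0 < x) (hxa : x ≤ a)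
    (hy : 0 < y) (hτ : τ < 1) (hT : 0 < T) (hTu : T ≤ 1 - τ) (hA : 1 ≤ A) (hρ : 0 < ρ) :
    Reg a (1 - x / a) (T / (1 - τ)) ((1 - τ) * ρ) A
      (FD (lz (Vale.Agent.P146.R1C.kk n (β * √(1 - τ))) (SkS (n := n))) (fun _ => y)
        (fun _ => √((1 - (1 - τ)) / (1 - τ))) 1) := by
  have hu : 0 < 1 - τ := by linarith
  rw [F_one' n β hu y, show 1 - (1 - τ) = τ by ring]
  have h0 := (sm_lz (Vale.Agent.P146.R1C.kk n β) (SkS (n := n))).c11
  have h1 := h0.W' hy √τ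
  exact reg_of_SS_win h1 hx hxa hT hTu hA hρ r.lo r.up

end Vale.Agent.P146.U.H979
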