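import Vale.Agent.P146.U.Ex1
import Vale.Agent.P146.H713.DeepCS

/-!
Rescaling of time. For a function `F` and `r > 0` put `sc r F z = F (r • z)`. The layer functional,
the means, the two-level functional `PP` and the gradient `Ps` of `F` at the times `r² t` are those
of `sc r F` at the times `t`. The one-layer functional of the Sherrington–Kirkpatrick field,
seen at the times in `[0, t]`, is again (after the rescaling) a one-layer deep functional, with the
inverse temperature `k √t` in place of `k`.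
-/

open MeasureTheory ProbabilityTheory

namespace Vale.Agent.P146.U.H979

open Vale.Agent.P157.Lv Vale.Agent.P146.H425 Vale.Agent.P146.R1 Vale.Agent.P146.U
open Vale.Agent.P146.H785 (Ax HW lf)
open Vale.Agent.P146.H325 Vale.Agent.P146.H332

set_option linter.unusedSectionVars false

variable {κ : Type} [Fintype κ] {F U φ ψ : (κ → ℝ) → ℝ} {D : κ → (κ → ℝ) → ℝ}
  {B L x y s a b c r t : ℝ}

/-- The rescaled function. -/
def sc (r : ℝ) (F : (κ → ℝ) → ℝ) (z : κ → ℝ) : ℝ := F (r • z)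

/-- The rescaled gradient. -/
def scD (r : ℝ) (D : κ → (κ → ℝ) → ℝ) (e : κ) (z : κ → ℝ) : ℝ := r * D e (r • z)

lemma sc_one : sc 1 F = F := by
  funext z
  unfold sc
  rw [one_smul]

lemma sc_sc (r r' : ℝ) : sc r (sc r' F) = sc (r' * r) F := by
  funext z
  unfold sc
  rw [smul_smul]

lemma W_sc (b s r : ℝ) (F : (κ → ℝ) → ℝ) : W b s (sc r F) = sc r (W b (r * s) F) := by
  funext z
  unfold W sc
  simp only [smul_add, smul_smul]

lemma W_sc' (hr : r ≠ 0) (b s : ℝ) (F : (κ → ℝ) → ℝ) :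
    sc r (W b s F) = W b (s / r) (sc r F) := by
  rw [W_sc, mul_div_cancel₀ _ hr]

lemma Mn_sc (x s r : ℝ) (U ψ : (κ → ℝ) → ℝ) :
    Mn x s (sc r U) (sc r ψ) = sc r (Mn x (r * s) U ψ) := by
  funext z
  unfold Mn sc
  simp only [smul_add, smul_smul]

lemma DW_sc (x s r : ℝ) (F : (κ → ℝ) → ℝ) (D : κ → (κ → ℝ) → ℝ) (e : κ) :
    DW x s (sc r F) (scD r D) e = scD r (DW x (r * s) F D) e := by
  funext z
  unfold DW sc scD
  simp only [smul_add, smul_smul]
  rw [← mul_div_assoc, ← integral_const_mul]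
  congr 1
  refine integral_congr_ae (Filter.Eventually.of_forall fun w => ?_)
  simp only
  ring

lemma G2_sc (x b r : ℝ) (F : (κ → ℝ) → ℝ) (D : κ → (κ → ℝ) → ℝ) :
    G2 x b (sc r F) (scD r D) = fun z => r ^ 2 * sc r (G2 x (r * b) F D) z := by
  funext z
  unfold G2
  rw [show sc r (fun y => ∑ e, DW x (r * b) F D e y ^ 2) z =
    ∑ e, DW x (r * b) F D e (r • z) ^ 2 from rfl, Finset.mul_sum]
  refine Finset.sum_congr rfl fun e _ => ?_
  rw [DW_sc]
  unfold scD
  ring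

lemma PP_sc (x b c s r : ℝ) (F : (κ → ℝ) → ℝ) :
    PP x b c s (sc r F) = PP x b (r * c) (r * s) F := by
  unfold PP
  rw [W_sc, W_sc]
  unfold sc
  rw [smul_zero]

lemma EE_sc (x b c s r : ℝ) (F ψ : (κ → ℝ) → ℝ) :
    EE x b c s (sc r F) (sc r ψ) = EE x b (r * c) (r * s) F ψ := by
  unfold EE
  rw [W_sc, Mn_sc]
  unfold sc
  rw [smul_zero]

lemma Ps_sc (x b c s r : ℝ) (F : (κ → ℝ) → ℝ) (D : κ → (κ → ℝ) → ℝ) :
    Ps x b c s (sc r F) (scD r D) = r ^ 2 * Ps x b (r * c) (r * s) F D := by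
  unfold Ps
  rw [G2_sc, EE_const_mul, EE_sc]

lemma Kc_sc (b s r : ℝ) (F : (κ → ℝ) → ℝ) : Kc b s (sc r F) = sc r (Kc b (r * s) F) := by
  funext z
  unfold Kc sc KL
  simp only [smul_add, smul_smul]

lemma SS_sc (x b c s r : ℝ) (F : (κ → ℝ) → ℝ) :
    SS x b c s (sc r F) = SS x b (r * c) (r * s) F := by
  unfold SS
  rw [Kc_sc, EE_sc]

/-! ### regularity of the rescaled function -/

lemma cv_sc (hc : Cv F) (r : ℝ) : Cv (sc r F) := by
  intro a b ha hb hab w0 w1
  have := hc a b ha hb hab (r • w0) (r • w1)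
  unfold sc
  rw [smul_add, smul_comm r a, smul_comm r b]
  exact this

lemma c11_sc (h : C11 F D B L) (hr : 0 ≤ r) : C11 (sc r F) (scD r D) (r * B) (r ^ 2 * L) where
  B0 := mul_nonneg hr h.B0
  L0 := mul_nonneg (sq_nonneg r) h.L0
  lip := fun y w => by
    have := h.lip (r • y) (r • w)
    unfold sc
    rw [smul_add]
    refine this.trans (le_of_eq ?_)
    rw [norm_smul, Real.norm_eq_abs, abs_of_nonneg hr]
    ring
  meas := fun e => ((h.meas e).comp (measurable_const_smul r)).const_mul r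
  bd := fun e y => by
    unfold scD
    rw [abs_mul, abs_of_nonneg hr]
    exact mul_le_mul_of_nonneg_left (h.bd e _) hr
  quad := fun y w => by
    have := h.quad (r • y) (r • w)
    unfold sc scD
    rw [smul_add]
    have e : ∑ e, r * D e (r • y) * w e = ∑ e, D e (r • y) * (r • w) e :=
      Finset.sum_congr rfl fun e _ => by
        rw [Pi.smul_apply, smul_eq_mul]
        ring
    rw [e]
    refine this.trans (le_of_eq ?_)
    rw [norm_smul, Real.norm_eq_abs, abs_of_nonneg hr]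
    ring

/-! ### the rescaled window

The times `t⁺ - T` and `t⁺` of the function `U = W y √(1 - t⁺) F` become the times `1 - T / t⁺` and
`1` of `sc √t⁺ U`.
-/

lemma sqrt_win {u T : ℝ} (hu : 0 < u) : √u * √(1 - T / u) = √(u - T) := by
  rw [← Real.sqrt_mul hu.le]
  congr 1
  field_simp

lemma sqrt_win' {u T : ℝ} (hu : 0 < u) : √u * √(T / u) = √T := by
  rw [← Real.sqrt_mul hu.le]
  congr 1
  field_simp

theorem PP_win {u T : ℝ} (hu : 0 < u) (x a : ℝ) (U : (κ → ℝ) → ℝ) :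
    PP x a √(1 - T / u) √(T / u) (sc √u U) = PP x a √(u - T) √T U := by
  rw [PP_sc, sqrt_win hu, sqrt_win' hu]

theorem SS_win {u T : ℝ} (hu : 0 < u) (x a : ℝ) (U : (κ → ℝ) → ℝ) :
    SS x a √(1 - T / u) √(T / u) (sc √u U) = SS x a √(u - T) √T U := by
  rw [SS_sc, sqrt_win hu, sqrt_win' hu]

theorem Ps_win {u T : ℝ} (hu : 0 < u) (x a : ℝ) (U : (κ → ℝ) → ℝ) (D : κ → (κ → ℝ) → ℝ) :
    Ps x a √(1 - T / u) √(T / u) (sc √u U) (scD √u D) = u * Ps x a √(u - T) √T U D := by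
  rw [Ps_sc, sqrt_win hu, sqrt_win' hu, Real.sq_sqrt hu.le]

/-! ### deep functionals -/

section deep

variable {c φ ψ : (κ → ℝ) → ℝ} {m σ : ℕ → ℝ}

lemma Ax_sc (x s r : ℝ) (F φ : (κ → ℝ) → ℝ) : Ax x s (sc r F) (sc r φ) = sc r (Ax x (r * s) F φ) := by
  funext z
  unfold Ax sc
  simp only [smul_add, smul_smul]

lemma KW_sc (x s r : ℝ) (F c φ ψ : (κ → ℝ) → ℝ) :
    KW x s (sc r F) (sc r c) (sc r φ) (sc r ψ) = sc r (KW x (r * s) F c φ ψ) := by
  funext z
  unfold KW
  rw [show (fun u => sc r φ u * sc r ψ u) = sc r (fun u => φ u * ψ u) from rfl, Ax_sc, Ax_sc,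
    Ax_sc, Ax_sc]
  rfl

lemma FD_sc (r : ℝ) (F : (κ → ℝ) → ℝ) (m σ : ℕ → ℝ) (J : ℕ) :
    FD (sc r F) m σ J = sc r (FD F m (fun i => r * σ i) J) := by
  induction J with
  | zero => rfl
  | succ J ih => rw [FD_succ, FD_succ, ih, W_sc]

lemma TD_sc (r : ℝ) (F φ : (κ → ℝ) → ℝ) (m σ : ℕ → ℝ) (J : ℕ) :
    TD (sc r F) m σ (sc r φ) J = sc r (TD F m (fun i => r * σ i) φ J) := by
  induction J with
  | zero => rfl
  | succ J ih => rw [TD_succ, TD_succ, ih, FD_sc, Ax_sc]

lemma TD_smul (a : ℝ) (F φ : (κ → ℝ) → ℝ) (m σ : ℕ → ℝ) (J : ℕ) :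
    TD F m σ (fun z => a * φ z) J = fun z => a * TD F m σ φ J z := by
  induction J with
  | zero => rfl
  | succ J ih =>
    funext z
    rw [TD_succ, TD_succ, ih]
    unfold Ax
    rw [← mul_div_assoc, ← integral_const_mul]
    congr 1
    refine integral_congr_ae (Filter.Eventually.of_forall fun w => ?_)
    simp only
    ring

lemma KD_sc (r : ℝ) (F c φ ψ : (κ → ℝ) → ℝ) (m σ : ℕ → ℝ) (J : ℕ) :
    KD (sc r F) m σ (sc r c) (sc r φ) (sc r ψ) J =
      sc r (KD F m (fun i => r * σ i) c φ ψ J) := by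
  induction J with
  | zero => rfl
  | succ J ih => rw [KD_succ, KD_succ, ih, TD_sc, TD_sc, FD_sc, KW_sc]

end deep

/-! ### the Gibbs system -/

section gibbs

variable {ι : Type} [Fintype ι] [DecidableEq ι] {X : Type} [Fintype X] [Nonempty X]
variable (k r : ℝ) (S : ι → X → ℝ)

lemma ez_sc (u : ι → ℝ) (x : X) : ez (k * r) S u x = ez k S (r • u) x := by
  unfold ez
  congr 1
  rw [mul_assoc, Finset.mul_sum]
  congr 1
  exact Finset.sum_congr rfl fun e _ => by
    rw [Pi.smul_apply, smul_eq_mul]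
    ring

lemma Zp_sc (u : ι → ℝ) : Zp (k * r) S u = Zp k S (r • u) := by
  unfold Zp
  exact Finset.sum_congr rfl fun x _ => ez_sc k r S u x

lemma lz_sc : lz (k * r) S = sc r (lz k S) := by
  funext u
  unfold lz sc
  rw [Zp_sc]

lemma av_sc (h : X → ℝ) : av (k * r) S h = sc r (av k S h) := by
  funext u
  unfold av sc
  rw [Zp_sc]
  simp only [ez_sc]

lemma Dz_sc (e : ι) : Dz (k * r) S e = fun z => r * sc r (Dz k S e) z := by
  funext u
  unfold Dz
  rw [av_sc]
  unfold sc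
  ring

/-- **The deep functional of the rescaled system.** -/
theorem FD_gibbs (m σ : ℕ → ℝ) (J : ℕ) :
    FD (lz (k * r) S) m σ J = sc r (FD (lz k S) m (fun i => r * σ i) J) := by
  rw [lz_sc, FD_sc]

theorem TD_gibbs (m σ : ℕ → ℝ) (J : ℕ) :
    (fun e => TD (lz (k * r) S) m σ (Dz (k * r) S e) J) =
      scD r fun e => TD (lz k S) m (fun i => r * σ i) (Dz k S e) J := by
  funext e z
  rw [Dz_sc, lz_sc, TD_smul, TD_sc]
  rfl

/-- one layer -/
theorem F_one {u : ℝ} (hu : 0 < u) (y : ℝ) :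
    FD (lz (k * √u) S) (fun _ => y) (fun _ => √((1 - u) / u)) 1 =
      sc √u (W y √(1 - u) (lz k S)) := by
  rw [FD_gibbs, FD_succ, FD_zero, sqrt_win' hu]

theorem D_one {u : ℝ} (hu : 0 < u) (y : ℝ) :
    (fun e => TD (lz (k * √u) S) (fun _ => y) (fun _ => √((1 - u) / u)) (Dz (k * √u) S e) 1) =
      scD √u fun e => DW y √(1 - u) (lz k S) (Dz k S) e := by
  rw [TD_gibbs]
  congr 1
  funext e
  rw [TD_succ, TD_zero, FD_zero, sqrt_win' hu]
  rfl

end gibbs

end Vale.Agent.P146.U.H979
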